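import Mathlib

/-!
# P167: positions of the strips and of the nodes of a net (arithmetic)
-/

set_option autoImplicit false

namespace Vale.Agent.P167.H990

open Finset

/-- A multiple of `m` in an interval, far from finitely many numbers. -/
theorem pick {m μ lo hi : ℤ} (hμ : 0 < μ) (hm : 2 * μ ≤ m) (G : Finset ℤ)
    (h : ((G.card : ℤ) + 2) * m ≤ hi - lo) :
    ∃ t : ℤ, m ∣ t ∧ lo ≤ t ∧ t ≤ hi ∧ ∀ g ∈ G, t + μ ≤ g ∨ g + μ ≤ t := by
  by_contra hcon
  push Not at hcon
  have hm0 : 0 < m := by omega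
  have c1 : m * (lo / m) ≤ lo := Int.mul_ediv_self_le (by omega)
  have c2 : lo < m * (lo / m) + m := Int.lt_mul_ediv_self_add (by omega)
  obtain ⟨c0, hc0⟩ : ∃ c0, c0 = lo / m := ⟨_, rfl⟩
  rw [← hc0] at c1 c2
  have key : ∀ j ∈ range (G.card + 1), ∃ g ∈ G, g < m * (c0 + 1 + j) + μ ∧
      m * (c0 + 1 + j) < g + μ := by
    intro j hj
    rw [mem_range] at hj
    have h0 : (0 : ℤ) ≤ m * j := by positivity
    have h1 : m * (j : ℤ) ≤ m * G.card := by
      refine mul_le_mul_of_nonneg_left ?_ hm0.le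
      exact_mod_cast Nat.lt_succ_iff.1 hj
    obtain ⟨g, hg, h2, h3⟩ := hcon (m * (c0 + 1 + j)) (Dvd.intro _ rfl) (by nlinarith)
      (by nlinarith)
    exact ⟨g, hg, h2, h3⟩
  choose! f hf using key
  obtain ⟨i, hi', j, hj', hij, hfij⟩ := Finset.exists_ne_map_eq_of_card_lt_of_maps_to
    (s := range (G.card + 1)) (t := G) (f := f) (by simp) fun j hj => (hf j hj).1
  obtain ⟨-, a1, a2⟩ := hf i hi'
  obtain ⟨-, b1, b2⟩ := hf j hj'
  rw [hfij] at a1 a2
  have h1 : m * (i : ℤ) < m * ((j : ℤ) + 1) := by nlinarith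
  have h2 : m * (j : ℤ) < m * ((i : ℤ) + 1) := by nlinarith
  have h3 : (i : ℤ) < j + 1 := lt_of_mul_lt_mul_left h1 hm0.le
  have h4 : (j : ℤ) < i + 1 := lt_of_mul_lt_mul_left h2 hm0.le
  omega

/-- Positions for finitely many strips. -/
theorem positions {α : Type*} [DecidableEq α] {m μ : ℤ} (hμ : 0 < μ) (hm : 2 * μ ≤ m)
    (S : Finset α) (lo hi : α → ℤ) (G : Finset ℤ)
    (h : ∀ X ∈ S, ((G.card : ℤ) + S.card + 2) * m ≤ hi X - lo X) :
    ∃ t : α → ℤ, (∀ X ∈ S, m ∣ t X ∧ lo X ≤ t X ∧ t X ≤ hi X ∧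
      ∀ g ∈ G, t X + μ ≤ g ∨ g + μ ≤ t X) ∧ ∀ X ∈ S, ∀ Y ∈ S, X ≠ Y → t X ≠ t Y := by
  have hm0 : 0 < m := by omega
  have key : ∀ S' ⊆ S, ∃ t : α → ℤ, (∀ X ∈ S', m ∣ t X ∧ lo X ≤ t X ∧ t X ≤ hi X ∧
      ∀ g ∈ G, t X + μ ≤ g ∨ g + μ ≤ t X) ∧ ∀ X ∈ S', ∀ Y ∈ S', X ≠ Y → t X ≠ t Y := by
    intro S'
    induction S' using Finset.induction_on with
    | empty => exact fun _ => ⟨fun _ => 0, by simp, by simp⟩
    | insert Z S' hZ ih =>
      intro hS
      obtain ⟨t, h1, h2⟩ := ih ((Finset.subset_insert _ _).trans hS)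
      have hcard : S'.card + 1 ≤ S.card := by
        rw [← card_insert_of_notMem hZ]
        exact card_le_card hS
      obtain ⟨τ, k1, k2, k3, k4⟩ := pick (lo := lo Z) (hi := hi Z) hμ hm (G ∪ S'.image t) (by
        refine le_trans (mul_le_mul_of_nonneg_right ?_ hm0.le) (h Z (hS (mem_insert_self _ _)))
        have h3 := card_union_le G (S'.image t)
        have h4 : (S'.image t).card ≤ S'.card := card_image_le
        have h5 : ((G ∪ S'.image t).card : ℤ) ≤ G.card + S'.card := by
          exact_mod_cast h3.trans (by omega)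
        have h6 : (S'.card : ℤ) + 1 ≤ S.card := by exact_mod_cast hcard
        linarith)
      refine ⟨Function.update t Z τ, ?_, ?_⟩
      · intro X hX
        by_cases hXZ : X = Z
        · rw [hXZ, Function.update_self]
          exact ⟨k1, k2, k3, fun g hg => k4 g (mem_union_left _ hg)⟩
        · rw [Function.update_of_ne hXZ]
          exact h1 X (mem_of_mem_insert_of_ne hX hXZ)
      · intro X hX Y hY hXY
        by_cases hXZ : X = Z
        · have hYZ : Y ≠ Z := fun h => hXY (hXZ.trans h.symm)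
          rw [hXZ, Function.update_self, Function.update_of_ne hYZ]
          have := k4 (t Y) (mem_union_right _ (mem_image_of_mem t (mem_of_mem_insert_of_ne hY hYZ)))
          omega
        · by_cases hYZ : Y = Z
          · rw [hYZ, Function.update_self, Function.update_of_ne hXZ]
            have := k4 (t X)
              (mem_union_right _ (mem_image_of_mem t (mem_of_mem_insert_of_ne hX hXZ)))
            omega
          · rw [Function.update_of_ne hXZ, Function.update_of_ne hYZ]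
            exact h2 X (mem_of_mem_insert_of_ne hX hXZ) Y (mem_of_mem_insert_of_ne hY hYZ) hXY
  exact key S (Finset.Subset.refl _)

/-- The stations on a strip: all the multiples of `m = 2 R` at distance at least `R` from the ends. -/
theorem stations {l0 l1 R m : ℤ} (hR : 0 < R) (hm : m = 2 * R) (hl : l0 ≤ l1) :
    ∃ (ν : ℕ) (P : ℕ → ℤ), P 0 = l0 ∧ P (ν + 1) = l1 ∧
      (∀ k ≤ ν, P k ≤ P (k + 1) ∧ P (k + 1) - P k ≤ 2 * m) ∧
      (∀ k, 1 ≤ k → k ≤ ν → m ∣ P k ∧ l0 + R ≤ P k ∧ P k + R ≤ l1) ∧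
      (ν : ℤ) * m ≤ l1 - l0 ∧
      (∀ k ≤ ν, ∀ X : ℤ, m ∣ X → l0 + R ≤ X → X + R ≤ l1 → P k < X + R → X < P (k + 1) + R →
        (1 ≤ k ∧ X = P k) ∨ (k + 1 ≤ ν ∧ X = P (k + 1))) ∧
      (∀ k k', k < k' → k' ≤ ν → P (k + 1) ≤ P k') ∧
      ∀ k ≤ ν + 1, l0 ≤ P k ∧ P k ≤ l1 := by
  have hm0 : 0 < m := by omega
  obtain ⟨j0, hj0⟩ : ∃ j0, j0 = (l0 + R - 1) / m + 1 := ⟨_, rfl⟩
  obtain ⟨j1, hj1⟩ : ∃ j1, j1 = (l1 - R) / m := ⟨_, rfl⟩
  have a1 : m * (j0 - 1) ≤ l0 + R - 1 := by
    rw [hj0, add_sub_cancel_right]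
    exact Int.mul_ediv_self_le (by omega)
  have a2 : l0 + R - 1 < m * j0 := by
    have := Int.lt_mul_ediv_self_add (x := l0 + R - 1) hm0
    rw [hj0]
    linarith
  have b1 : m * j1 ≤ l1 - R := by
    rw [hj1]
    exact Int.mul_ediv_self_le (by omega)
  have b2 : l1 - R < m * (j1 + 1) := by
    have := Int.lt_mul_ediv_self_add (x := l1 - R) hm0
    rw [hj1]
    linarith
  clear hj0 hj1
  obtain ⟨ν, hν⟩ : ∃ ν : ℕ, ν = (j1 - j0 + 1).toNat := ⟨_, rfl⟩
  obtain ⟨P, hP⟩ : ∃ P : ℕ → ℤ, P = fun k => if k = 0 then l0 else if k ≤ ν then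
    m * (j0 + k - 1) else l1 := ⟨_, rfl⟩
  have P0 : P 0 = l0 := by rw [hP]; simp
  have Pm : ∀ k, 1 ≤ k → k ≤ ν → P k = m * (j0 + k - 1) := by
    intro k h1 h2
    rw [hP]
    simp only
    rw [if_neg (by omega), if_pos h2]
  have P1 : P (ν + 1) = l1 := by
    rw [hP]
    simp only
    rw [if_neg (by omega), if_neg (by omega)]
  have hge : ∀ k : ℕ, 1 ≤ k → k ≤ ν → l0 + R ≤ m * (j0 + k - 1) ∧ m * (j0 + k - 1) + R ≤ l1 := by
    intro k h1 h2
    have h3 : (ν : ℤ) = j1 - j0 + 1 := by omega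
    have h4 : m * j0 ≤ m * (j0 + k - 1) := mul_le_mul_of_nonneg_left (by omega) hm0.le
    have h5 : m * (j0 + k - 1) ≤ m * j1 := mul_le_mul_of_nonneg_left (by omega) hm0.le
    constructor <;> linarith
  have hrange : ∀ k ≤ ν + 1, l0 ≤ P k ∧ P k ≤ l1 := by
    intro k hk
    rcases Nat.eq_zero_or_pos k with h | h
    · rw [h, P0]; exact ⟨le_rfl, hl⟩
    · rcases Nat.lt_or_ge k (ν + 1) with h' | h'
      · rw [Pm k h (by omega)]
        have := hge k h (by omega)
        omega
      · have : k = ν + 1 := by omega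
        rw [this, P1]; exact ⟨hl, le_rfl⟩
  have hstep : ∀ k ≤ ν, P k ≤ P (k + 1) ∧ P (k + 1) - P k ≤ 2 * m := by
    intro k hk
    rcases Nat.eq_zero_or_pos k with h | h
    · subst h
      rw [P0]
      rcases Nat.eq_zero_or_pos ν with h' | h'
      · have h1 := P1
        rw [h'] at h1
        rw [h1]
        refine ⟨hl, ?_⟩
        have h3 : j1 + 1 ≤ j0 := by omega
        have h4 : m * (j1 + 1) ≤ m * j0 := mul_le_mul_of_nonneg_left h3 hm0.le
        have h5 : m * j0 = m * (j0 - 1) + m := by ring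
        linarith
      · have h1 := Pm 1 le_rfl h'
        have h2 := hge 1 le_rfl h'
        rw [zero_add, h1]
        have h5 : m * (j0 + (1 : ℕ) - 1) = m * (j0 - 1) + m := by push_cast; ring
        constructor
        · linarith
        · rw [h5]; linarith
    · rcases Nat.lt_or_ge k ν with h' | h'
      · rw [Pm k h hk, Pm (k + 1) (by omega) (by omega)]
        have h5 : m * (j0 + ((k + 1 : ℕ) : ℤ) - 1) = m * (j0 + k - 1) + m := by push_cast; ring
        rw [h5]
        constructor <;> linarith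
      · have h1 : k = ν := by omega
        subst h1
        rw [P1, Pm k h le_rfl]
        have h2 := hge k h le_rfl
        have h3 : (k : ℤ) = j1 - j0 + 1 := by omega
        have h5 : m * (j0 + k - 1) = m * (j1 + 1) - m := by rw [h3]; ring
        constructor
        · linarith
        · rw [h5]; linarith
  refine ⟨ν, P, P0, P1, hstep, ?_, ?_, ?_, ?_, hrange⟩
  · intro k h1 h2
    rw [Pm k h1 h2]
    exact ⟨Dvd.intro _ rfl, hge k h1 h2⟩
  · rcases Nat.eq_zero_or_pos ν with h | h
    · rw [h]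
      push_cast
      linarith
    · have h1 := hge 1 le_rfl h
      have h2 := hge ν h le_rfl
      have h5 : m * (j0 + (ν : ℤ) - 1) - m * (j0 + (1 : ℕ) - 1) = ν * m - m := by push_cast; ring
      linarith [h1.1, h2.2]
  · rintro k hk X ⟨j, rfl⟩ h1 h2 h3 h4
    have hj0 : j0 ≤ j := by
      have : m * (j0 - 1) < m * j := by linarith
      have := lt_of_mul_lt_mul_left this hm0.le
      omega
    have hj1 : j ≤ j1 := by
      have : m * j < m * (j1 + 1) := by linarith
      have := lt_of_mul_lt_mul_left this hm0.le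
      omega
    have hν1 : (ν : ℤ) = j1 - j0 + 1 := by omega
    rcases Nat.eq_zero_or_pos k with h | h
    · subst h
      right
      refine ⟨by omega, ?_⟩
      have h5 := Pm 1 le_rfl (by omega)
      rw [zero_add] at h4 ⊢
      rw [h5] at h4 ⊢
      have h6 : m * j < m * (j0 + 1) := by
        push_cast at h4
        nlinarith
      have := lt_of_mul_lt_mul_left h6 hm0.le
      have h7 : j = j0 := by omega
      rw [h7]
      push_cast
      ring
    · rw [Pm k h hk] at h3 ⊢
      have h6 : m * (j0 + k - 1) < m * (j + 1) := by nlinarith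
      have h7 := lt_of_mul_lt_mul_left h6 hm0.le
      rcases Nat.lt_or_ge k ν with h' | h'
      · rw [Pm (k + 1) (by omega) (by omega)] at h4 ⊢
        have h8 : m * j < m * (j0 + k + 1) := by
          push_cast at h4
          nlinarith
        have h9 := lt_of_mul_lt_mul_left h8 hm0.le
        rcases (show j = j0 + k - 1 ∨ j = j0 + k by omega) with h10 | h10
        · left
          exact ⟨h, by rw [h10]⟩
        · right
          refine ⟨by omega, ?_⟩
          rw [h10]
          push_cast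
          ring
      · left
        refine ⟨h, ?_⟩
        have : j = j0 + k - 1 := by omega
        rw [this]
  · have hmono : ∀ k k', k ≤ k' → k' ≤ ν + 1 → P k ≤ P k' := by
      intro k k' hk
      induction k', hk using Nat.le_induction with
      | base => exact fun _ => le_rfl
      | succ k' _ ih => exact fun h => (ih (by omega)).trans (hstep k' (by omega)).1
    intro k k' hk hk'
    exact hmono (k + 1) k' (by omega) (by omega)

end Vale.Agent.P167.H990
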