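import Vale.Agent.P167.H990.Det
import Vale.Agent.P167.H990.Pos
import Vale.Agent.P167.N.Base.CrsDefs

/-!
# P167: finitely many crossings of one colour, `0 < Q ≤ 1`

`crs_main`: any finite family of crossings of rectangles of comparable size by one colour occurs
simultaneously with a probability bounded below, for all configurations outside of the domain.
-/

set_option autoImplicit false

namespace Vale.Agent.P167.H990

open Finset Vale.Agent.P167.FK Vale.Agent.P167.FKA Vale.Agent.P167.H262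
open Vale.Agent.P167.H632 (cs pr bl nm_le le_nm)
open Relation (ReflTransGen)
open Vale.Agent.P145.FB (PStep PConn)
open Vale.Agent.P167.N (Crs)
open Vale.Agent.P167.H704 (Hc Vc)

/-- The first end of the crossing. -/
def l0 (X : Crs) : ℤ := if X.d then X.a else X.p
/-- The second end of the crossing. -/
def l1 (X : Crs) : ℤ := if X.d then X.b else X.q
/-- The lower side of the strip. -/
def t0 (X : Crs) : ℤ := if X.d then X.p else X.a
/-- The upper side of the strip. -/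
def t1 (X : Crs) : ℤ := if X.d then X.q else X.b

theorem ev_eq (e : Bool) (X : Crs) : X.Ev e = Cx X.d e (l0 X) (l1 X) (t0 X) (t1 X) := by
  obtain ⟨d, a, b, p, q⟩ := X
  cases d
  · simp only [Crs.Ev, l0, l1, t0, t1, Bool.false_eq_true, if_false, Cx_false]
  · simp only [Crs.Ev, l0, l1, t0, t1, if_true, Cx_true]

theorem ok_iff {s : ℤ} {κ : ℕ} {D : Finset Pt} {X : Crs} (h : X.Ok s κ D) :
    l0 X ≤ l1 X ∧ t0 X ≤ t1 X ∧ s ≤ t1 X - t0 X ∧ l1 X - l0 X ≤ κ * s ∧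
      ∀ v : Pt, l0 X ≤ lg X.d v → lg X.d v < l1 X → t0 X ≤ tg X.d v → tg X.d v < t1 X → v ∈ D := by
  obtain ⟨d, a, b, p, q⟩ := X
  obtain ⟨h1, h2, h3, h4⟩ := h
  cases d
  · simp only [l0, l1, t0, t1, lg, tg, Bool.false_eq_true, if_false] at *
    exact ⟨h2, h1, h3.1, h3.2, fun v k1 k2 k3 k4 => h4 v k3 k4 k1 k2⟩
  · simp only [l0, l1, t0, t1, lg, tg, if_true] at *
    exact ⟨h1, h2, h3.1, h3.2, fun v k1 k2 k3 k4 => h4 v k1 k2 k3 k4⟩

/-- The arm number `k` of a strip. -/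
def mkArm (d : Bool) (t : ℤ) (ν : ℕ) (P : ℕ → ℤ) (k : ℕ) : Arm where
  d := d
  x := P k
  y := P (k + 1)
  t := t
  l := if 1 ≤ k then {nd d (P k) t} else ∅
  n := if k + 1 ≤ ν then {nd d (P (k + 1)) t} else ∅

theorem nd_ext {d : Bool} {z : Pt} {X t : ℤ} (h1 : lg d z = X) (h2 : tg d z = t) :
    z = nd d X t := by
  cases d
  · simp only [lg, tg, Bool.false_eq_true, if_false] at h1 h2
    simp only [nd, Bool.false_eq_true, if_false]
    ext
    · exact h2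
    · exact h1
  · simp only [lg, tg, if_true] at h1 h2
    simp only [nd, if_true]
    ext
    · exact h1
    · exact h2

theorem mem_Bq' (d : Bool) {v z : Pt} {R : ℤ} : v ∈ Bq z R ↔ lg d z - R ≤ lg d v ∧
    lg d v < lg d z + R ∧ tg d z - R ≤ tg d v ∧ tg d v < tg d z + R := by
  simp only [Bq, Finset.mem_product, Finset.mem_Ico]
  cases d
  · simp only [lg, tg, Bool.false_eq_true, if_false]
    omega
  · simp only [lg, tg, if_true]
    omega

theorem mul_eq_of {m x y : ℤ} (hx : m ∣ x) (hy : m ∣ y) (h1 : x < y + m) (h2 : y < x + m) :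
    x = y := by
  obtain ⟨i, rfl⟩ := hx
  obtain ⟨j, rfl⟩ := hy
  have hm : 0 < m := by linarith
  have h3 : m * i < m * (j + 1) := by linarith
  have h4 : m * j < m * (i + 1) := by linarith
  have h5 := lt_of_mul_lt_mul_left h3 hm.le
  have h6 := lt_of_mul_lt_mul_left h4 hm.le
  rw [show i = j by omega]

/-- The geometry of a net. -/
structure Geo (r R m : ℤ) (S : Finset Crs) (D : Finset Pt) (t : Crs → ℤ) (ν : Crs → ℕ)
    (P : Crs → ℕ → ℤ) : Prop where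
  hr : 1 ≤ r
  hrR : r ≤ R
  hm : m = 2 * R
  sq : ∀ X ∈ S, ∀ v : Pt, l0 X ≤ lg X.d v → lg X.d v < l1 X → t0 X ≤ tg X.d v →
    tg X.d v < t1 X → v ∈ D
  st : ∀ X ∈ S, l0 X ≤ l1 X
  s1 : ∀ X ∈ S, m ∣ t X
  s2 : ∀ X ∈ S, t0 X + R ≤ t X ∧ t X + R ≤ t1 X
  s3 : ∀ X ∈ S, ∀ Y ∈ S, (t Y + R ≤ l0 X ∨ l0 X + R ≤ t Y) ∧ (t Y + R ≤ l1 X ∨ l1 X + R ≤ t Y)
  s4 : ∀ X ∈ S, ∀ Y ∈ S, X ≠ Y → t X ≠ t Y
  p1 : ∀ X ∈ S, P X 0 = l0 X
  p2 : ∀ X ∈ S, P X (ν X + 1) = l1 X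
  p3 : ∀ X ∈ S, ∀ k ≤ ν X, P X k ≤ P X (k + 1) ∧ P X (k + 1) - P X k ≤ 2 * m
  p4 : ∀ X ∈ S, ∀ k, 1 ≤ k → k ≤ ν X → m ∣ P X k ∧ l0 X + R ≤ P X k ∧ P X k + R ≤ l1 X
  p6 : ∀ X ∈ S, ∀ k ≤ ν X, ∀ Y : ℤ, m ∣ Y → l0 X + R ≤ Y → Y + R ≤ l1 X → P X k < Y + R →
    Y < P X (k + 1) + R → (1 ≤ k ∧ Y = P X k) ∨ (k + 1 ≤ ν X ∧ Y = P X (k + 1))
  p7 : ∀ X ∈ S, ∀ k k', k < k' → k' ≤ ν X → P X (k + 1) ≤ P X k'
  p8 : ∀ X ∈ S, ∀ k ≤ ν X + 1, l0 X ≤ P X k ∧ P X k ≤ l1 X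

open Classical in
/-- The nodes. -/
noncomputable def NN (S : Finset Crs) (t : Crs → ℤ) (ν : Crs → ℕ) (P : Crs → ℕ → ℤ) : Finset Pt :=
  S.biUnion fun X => (Finset.Icc 1 (ν X)).image fun k => nd X.d (P X k) (t X)

open Classical in
/-- The arms. -/
noncomputable def II (S : Finset Crs) (t : Crs → ℤ) (ν : Crs → ℕ) (P : Crs → ℕ → ℤ) :
    Finset Arm :=
  S.biUnion fun X => (Finset.range (ν X + 1)).image (mkArm X.d (t X) (ν X) (P X))

section

variable {r R m : ℤ} {S : Finset Crs} {D : Finset Pt} {t : Crs → ℤ} {ν : Crs → ℕ}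
  {P : Crs → ℕ → ℤ}

theorem memN {z : Pt} : z ∈ NN S t ν P ↔
    ∃ X ∈ S, ∃ k, 1 ≤ k ∧ k ≤ ν X ∧ nd X.d (P X k) (t X) = z := by
  simp only [NN, mem_biUnion, mem_image, mem_Icc, and_assoc]

theorem memI {α : Arm} : α ∈ II S t ν P ↔
    ∃ X ∈ S, ∃ k ≤ ν X, mkArm X.d (t X) (ν X) (P X) k = α := by
  simp only [II, mem_biUnion, mem_image, mem_range, Nat.lt_succ_iff]

theorem NN_card {n M : ℕ} (hSc : S.card ≤ n) (hν : ∀ X ∈ S, ν X ≤ M) :
    (NN S t ν P).card ≤ n * M := by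
  refine (card_biUnion_le).trans ((sum_le_sum fun X hX => ?_).trans
    (le_trans (by rw [sum_const, smul_eq_mul]) (Nat.mul_le_mul_right M hSc)))
  refine (card_image_le).trans ?_
  rw [Nat.card_Icc]
  have := hν X hX
  omega

theorem II_card {n M : ℕ} (hSc : S.card ≤ n) (hν : ∀ X ∈ S, ν X ≤ M) :
    (II S t ν P).card ≤ n * (M + 1) := by
  refine (card_biUnion_le).trans ((sum_le_sum fun X hX => ?_).trans
    (le_trans (by rw [sum_const, smul_eq_mul]) (Nat.mul_le_mul_right (M + 1) hSc)))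
  refine (card_image_le).trans ?_
  rw [card_range]
  have := hν X hX
  omega

theorem dir_ne {X Y : Crs} (h : X.d ≠ Y.d) : X.d = !Y.d := by
  revert h
  cases X.d <;> cases Y.d <;> simp

/-- the coordinates of the nodes -/
theorem Geo.nodeC (g : Geo r R m S D t ν P) {z : Pt} (hz : z ∈ NN S t ν P) (d : Bool) :
    m ∣ lg d z ∧ m ∣ tg d z := by
  obtain ⟨X, hX, k, hk1, hk2, rfl⟩ := memN.1 hz
  have h1 := (g.p4 X hX k hk1 hk2).1
  have h2 := g.s1 X hX
  by_cases hd : d = X.d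
  · subst hd
    rw [lg_nd, tg_nd]
    exact ⟨h1, h2⟩
  · have hd' : d = !X.d := by
      revert hd
      cases d <;> cases X.d <;> simp
    subst hd'
    rw [lg_not, tg_not, lg_nd, tg_nd]
    exact ⟨h2, h1⟩

/-- a node on the strip of `X` is a station of `X` -/
theorem Geo.nodeR (g : Geo r R m S D t ν P) {X : Crs} (hX : X ∈ S) {z : Pt}
    (hz : z ∈ NN S t ν P) (h1 : tg X.d z = t X) (h2 : l0 X < lg X.d z + R)
    (h3 : lg X.d z < l1 X + R) : l0 X + R ≤ lg X.d z ∧ lg X.d z + R ≤ l1 X := by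
  obtain ⟨Y, hY, k, hk1, hk2, rfl⟩ := memN.1 hz
  by_cases hd : X.d = Y.d
  · rw [hd] at h1 h2 h3 ⊢
    rw [tg_nd] at h1
    rw [lg_nd] at h2 h3 ⊢
    have hXY : X = Y := by
      by_contra hne
      exact g.s4 X hX Y hY hne h1.symm
    subst hXY
    exact (g.p4 X hX k hk1 hk2).2
  · have hd' := dir_ne hd
    rw [hd'] at h1 h2 h3 ⊢
    rw [lg_not, tg_nd] at h2 h3 ⊢
    obtain ⟨h4, h5⟩ := g.s3 X hX Y hY
    omega

theorem Geo.boxD (g : Geo r R m S D t ν P) : ∀ z ∈ NN S t ν P, Bq z R ⊆ D := by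
  intro z hz v hv
  obtain ⟨X, hX, k, hk1, hk2, rfl⟩ := memN.1 hz
  have q1 := g.s2 X hX
  have p9 := (g.p4 X hX k hk1 hk2).2
  rw [mem_Bq' X.d, lg_nd, tg_nd] at hv
  exact g.sq X hX v (by omega) (by omega) (by omega) (by omega)

theorem Geo.armD (g : Geo r R m S D t ν P) : ∀ α ∈ II S t ν P, α.sq r ⊆ D := by
  intro α hα v hv
  obtain ⟨X, hX, k, hk, rfl⟩ := memI.1 hα
  have q1 := g.s2 X hX
  have p9 := g.p8 X hX k (by omega)
  have p10 := g.p8 X hX (k + 1) (by omega)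
  have hrR := g.hrR
  simp only [Arm.sq, mkArm, mem_ar] at hv
  exact g.sq X hX v (by omega) (by omega) (by omega) (by omega)

theorem Geo.box_disj (g : Geo r R m S D t ν P) : ∀ z ∈ NN S t ν P, ∀ z' ∈ NN S t ν P, z ≠ z' →
    Disjoint (Bq z R) (Bq z' R) := by
  intro z hz z' hz' hne
  rw [Finset.disjoint_left]
  intro v hv hv'
  rw [mem_Bq' true] at hv hv'
  obtain ⟨a1, a2⟩ := g.nodeC hz true
  obtain ⟨b1, b2⟩ := g.nodeC hz' true
  have hm := g.hm
  refine hne ?_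
  have e1 := mul_eq_of a1 b1 (by omega) (by omega)
  have e2 := mul_eq_of a2 b2 (by omega) (by omega)
  exact (nd_ext (d := true) e1 e2).trans (nd_ext (d := true) rfl rfl).symm

theorem Geo.arm_disj (g : Geo r R m S D t ν P) : ∀ α ∈ II S t ν P, ∀ β ∈ II S t ν P, α ≠ β →
    ∀ v ∈ α.sq r, v ∈ β.sq r → ∃ z ∈ NN S t ν P, v ∈ Bq z r := by
  intro α hα β hβ hne v hv hv'
  obtain ⟨X, hX, k, hk, rfl⟩ := memI.1 hα
  obtain ⟨Y, hY, k', hk', rfl⟩ := memI.1 hβ
  simp only [Arm.sq, mkArm, mem_ar] at hv hv'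
  have q1 := g.s1 X hX
  have q2 := g.s1 Y hY
  have hrR := g.hrR
  have hr := g.hr
  have hm := g.hm
  by_cases hd : X.d = Y.d
  · by_cases hXY : X = Y
    · subst hXY
      exfalso
      have hkk : k ≠ k' := fun h => hne (by rw [h])
      rcases lt_or_gt_of_ne hkk with h | h
      · have := g.p7 X hX k k' h hk'
        omega
      · have := g.p7 X hX k' k h hk
        omega
    · exfalso
      rw [hd] at hv
      exact g.s4 X hX Y hY hXY (mul_eq_of q1 q2 (by omega) (by omega))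
  · have hd' := dir_ne (Ne.symm hd)
    rw [hd', lg_not, tg_not] at hv'
    have p9 := g.p8 X hX k (by omega)
    have p10 := g.p8 X hX (k + 1) (by omega)
    obtain ⟨h4, h5⟩ := g.s3 X hX Y hY
    rcases g.p6 X hX k hk (t Y) q2 (by omega) (by omega) (by omega) (by omega) with
      ⟨h6, h7⟩ | ⟨h6, h7⟩
    · refine ⟨nd X.d (P X k) (t X), memN.2 ⟨X, hX, k, h6, hk, rfl⟩, ?_⟩
      rw [mem_Bq' X.d, lg_nd, tg_nd]
      omega
    · refine ⟨nd X.d (P X (k + 1)) (t X), memN.2 ⟨X, hX, k + 1, by omega, h6, rfl⟩, ?_⟩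
      rw [mem_Bq' X.d, lg_nd, tg_nd]
      omega

theorem Geo.arm_node (g : Geo r R m S D t ν P) : ∀ α ∈ II S t ν P, ∀ z ∈ NN S t ν P,
    ∀ v ∈ Bq z R, v ∈ α.sq r → z ∈ α.l ∨ z ∈ α.n := by
  intro α hα z hz v hv hv'
  obtain ⟨X, hX, k, hk, rfl⟩ := memI.1 hα
  simp only [Arm.sq, mkArm, mem_ar] at hv'
  rw [mem_Bq' X.d] at hv
  have hrR := g.hrR
  have hm := g.hm
  obtain ⟨a1, a2⟩ := g.nodeC hz X.d
  have e1 : tg X.d z = t X := mul_eq_of a2 (g.s1 X hX) (by omega) (by omega)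
  have p9 := g.p8 X hX k (by omega)
  have p10 := g.p8 X hX (k + 1) (by omega)
  have h3 := g.nodeR hX hz e1 (by omega) (by omega)
  rcases g.p6 X hX k hk (lg X.d z) a1 h3.1 h3.2 (by omega) (by omega) with ⟨h6, h7⟩ | ⟨h6, h7⟩
  · left
    simp only [mkArm, if_pos h6, mem_singleton]
    exact nd_ext h7 e1
  · right
    simp only [mkArm, if_pos h6, mem_singleton]
    exact nd_ext h7 e1

theorem arm_sub : ∀ α ∈ II S t ν P, α.l ⊆ NN S t ν P ∧ α.n ⊆ NN S t ν P := by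
  intro α hα
  obtain ⟨X, hX, k, hk, rfl⟩ := memI.1 hα
  constructor
  · intro z hz
    simp only [mkArm] at hz
    split_ifs at hz with h
    · rw [mem_singleton] at hz
      exact memN.2 ⟨X, hX, k, h, hk, hz.symm⟩
    · simp at hz
  · intro z hz
    simp only [mkArm] at hz
    split_ifs at hz with h
    · rw [mem_singleton] at hz
      exact memN.2 ⟨X, hX, k + 1, by omega, h, hz.symm⟩
    · simp at hz

/-- The net event implies the crossings. -/
theorem Geo.cross (g : Geo r R m S D t ν P) {e : Bool} {ω : Cfg}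
    (hω1 : ∀ z ∈ NN S t ν P, ω ∉ AR (!e) z r R)
    (hω2 : ∀ α ∈ II S t ν P, ω ∈ α.Ev e (NN S t ν P) r R) {X : Crs} (hX : X ∈ S) :
    ω ∈ X.Ev e := by
  classical
  rw [ev_eq]
  have q1 := g.s2 X hX
  refine chain (t := t X) (r := r) (R := R) (ν := ν X) (P := P X) g.hr g.hrR (by omega) (by omega)
    (g.st X hX) (g.p1 X hX) (g.p2 X hX) (fun k h1 h2 => (g.p4 X hX k h1 h2).2)
    (fun k h1 h2 => hω1 _ (memN.2 ⟨X, hX, k, h1, h2, rfl⟩)) fun k hk => ?_
  obtain ⟨u, hu, v, hv, huv⟩ := hω2 _ (memI.2 ⟨X, hX, k, hk, rfl⟩)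
  refine ⟨u, v, ?_, ?_, ?_⟩
  · rcases hu with hu | ⟨z, hz, hu⟩
    · exact Or.inl hu
    · simp only [mkArm] at hz
      split_ifs at hz with h
      · rw [mem_singleton] at hz
        subst hz
        exact Or.inr ⟨h, hu⟩
      · simp at hz
  · rcases hv with hv | ⟨z, hz, hv⟩
    · exact Or.inl hv
    · simp only [mkArm] at hz
      split_ifs at hz with h
      · rw [mem_singleton] at hz
        subst hz
        exact Or.inr ⟨h, hv⟩
      · simp at hz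
  · clear hu hv
    induction huv with
    | refl => exact ReflTransGen.refl
    | @tail a b _ hab ih =>
      refine ih.tail ⟨hab.1, hab.2.1, hab.2.2.1, ?_⟩
      have h3 := Finset.mem_coe.1 hab.2.2.2
      rw [Arm.fr, Finset.mem_filter] at h3
      exact Finset.mem_coe.2 h3.1

end

/-- The geometry exists. -/
theorem geo_exists {r R m s : ℤ} {n κ : ℕ} {S : Finset Crs} {D : Finset Pt} (hr : 1 ≤ r)
    (hrR : r ≤ R) (hm : m = 2 * R) (hSc : S.card ≤ n) (hs : (5 * n + 2) * m ≤ s)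
    (hOk : ∀ X ∈ S, X.Ok s κ D) : ∃ (t : Crs → ℤ) (ν : Crs → ℕ) (P : Crs → ℕ → ℤ),
      Geo r R m S D t ν P ∧ ∀ X ∈ S, (ν X : ℤ) * m ≤ κ * s := by
  classical
  have hR0 : 0 < R := by omega
  have hm0 : 0 < m := by omega
  obtain ⟨G, hG⟩ : ∃ G : Finset ℤ, G = ((S.image l0) ∪ (S.image l1)) ∪
    ((S.image t0) ∪ (S.image t1)) := ⟨_, rfl⟩
  have hGc : G.card ≤ 4 * S.card := by
    rw [hG]
    have e1 := card_union_le ((S.image l0) ∪ (S.image l1)) ((S.image t0) ∪ (S.image t1))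
    have e2 := card_union_le (S.image l0) (S.image l1)
    have e3 := card_union_le (S.image t0) (S.image t1)
    have e4 : (S.image l0).card ≤ S.card := card_image_le
    have e5 : (S.image l1).card ≤ S.card := card_image_le
    have e6 : (S.image t0).card ≤ S.card := card_image_le
    have e7 : (S.image t1).card ≤ S.card := card_image_le
    omega
  have g1 : ∀ X ∈ S, l0 X ∈ G := fun X hX => by
    rw [hG]; exact mem_union_left _ (mem_union_left _ (mem_image_of_mem _ hX))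
  have g2 : ∀ X ∈ S, l1 X ∈ G := fun X hX => by
    rw [hG]; exact mem_union_left _ (mem_union_right _ (mem_image_of_mem _ hX))
  have g3 : ∀ X ∈ S, t0 X ∈ G := fun X hX => by
    rw [hG]; exact mem_union_right _ (mem_union_left _ (mem_image_of_mem _ hX))
  have g4 : ∀ X ∈ S, t1 X ∈ G := fun X hX => by
    rw [hG]; exact mem_union_right _ (mem_union_right _ (mem_image_of_mem _ hX))
  clear hG
  obtain ⟨t, hpos, htne⟩ := positions (m := m) (μ := R) hR0 (by omega) S t0 t1 G (by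
    intro X hX
    obtain ⟨-, -, k3, -⟩ := ok_iff (hOk X hX)
    refine le_trans ?_ k3
    refine le_trans ?_ hs
    refine mul_le_mul_of_nonneg_right ?_ hm0.le
    have : (G.card : ℤ) + S.card ≤ 5 * n := by
      have : G.card + S.card ≤ 5 * n := by omega
      exact_mod_cast this
    linarith)
  have hstat : ∀ X : Crs, ∃ (ν : ℕ) (P : ℕ → ℤ), X ∈ S → (P 0 = l0 X ∧ P (ν + 1) = l1 X ∧
      (∀ k ≤ ν, P k ≤ P (k + 1) ∧ P (k + 1) - P k ≤ 2 * m) ∧
      (∀ k, 1 ≤ k → k ≤ ν → m ∣ P k ∧ l0 X + R ≤ P k ∧ P k + R ≤ l1 X) ∧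
      (ν : ℤ) * m ≤ l1 X - l0 X ∧
      (∀ k ≤ ν, ∀ Y : ℤ, m ∣ Y → l0 X + R ≤ Y → Y + R ≤ l1 X → P k < Y + R → Y < P (k + 1) + R →
        (1 ≤ k ∧ Y = P k) ∨ (k + 1 ≤ ν ∧ Y = P (k + 1))) ∧
      (∀ k k', k < k' → k' ≤ ν → P (k + 1) ≤ P k') ∧
      ∀ k ≤ ν + 1, l0 X ≤ P k ∧ P k ≤ l1 X) := by
    intro X
    by_cases hX : X ∈ S
    · obtain ⟨ν, P, h⟩ := stations hR0 hm (ok_iff (hOk X hX)).1
      exact ⟨ν, P, fun _ => h⟩
    · exact ⟨0, fun _ => 0, fun h => absurd h hX⟩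
  choose ν P hP using hstat
  refine ⟨t, ν, P, ⟨hr, hrR, hm, fun X hX => (ok_iff (hOk X hX)).2.2.2.2,
    fun X hX => (ok_iff (hOk X hX)).1, fun X hX => (hpos X hX).1, ?_, ?_, htne,
    fun X hX => (hP X hX).1, fun X hX => (hP X hX).2.1, fun X hX => (hP X hX).2.2.1,
    fun X hX => (hP X hX).2.2.2.1, fun X hX => (hP X hX).2.2.2.2.2.1,
    fun X hX => (hP X hX).2.2.2.2.2.2.1, fun X hX => (hP X hX).2.2.2.2.2.2.2⟩, ?_⟩
  · intro X hX
    obtain ⟨q1, q2, q3, q4⟩ := hpos X hX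
    have q5 := q4 _ (g3 X hX)
    have q6 := q4 _ (g4 X hX)
    omega
  · intro X hX Y hY
    exact ⟨(hpos Y hY).2.2.2 _ (g1 X hX), (hpos Y hY).2.2.2 _ (g2 X hX)⟩
  · intro X hX
    exact ((hP X hX).2.2.2.2.1).trans (ok_iff (hOk X hX)).2.2.2.1

/-- **Crossings of one colour, without positive association.** -/
theorem crs_main {Q : ℝ} (hQ : 0 < Q) (hQ1 : Q ≤ 1)
    (hA : ∃ α C : ℝ, 0 < α ∧ 0 < C ∧ ArmDec Q α C ∧ ArmDecD Q α C) (hV : VRt Q) (n κ : ℕ) :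
    ∃ (c : ℝ) (s0 : ℤ), 0 < c ∧ c ≤ 1 ∧ 1 ≤ s0 ∧
    ∀ (e : Bool) (s : ℤ) (L : List Crs) (D : Finset (ℤ × ℤ)) (η : Cfg), Good η → s0 ≤ s →
      L.length ≤ n → (∀ X ∈ L, X.Ok s κ D) → c ≤ Pr Q D η {ω | ∀ X ∈ L, ω ∈ X.Ev e} := by
  classical
  obtain ⟨K0, hK0, hhalf⟩ := arm_half hQ hA
  obtain ⟨c, n0, hc, hn0, hV⟩ := hV (2 * K0).toNat
  -- the constant is at most one
  have hc1 : min c 1 ≤ 1 := min_le_right _ _
  have hc0 : 0 < min c 1 := lt_min hc one_pos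
  obtain ⟨B, hB⟩ : ∃ B : ℤ, B = 2 * K0 * (5 * n + 2) := ⟨_, rfl⟩
  have hB1 : 1 ≤ B := by
    rw [hB]
    have : (0 : ℤ) ≤ n := by positivity
    nlinarith
  obtain ⟨M, hM⟩ : ∃ M : ℕ, M = κ * (2 * (5 * n + 2)) := ⟨_, rfl⟩
  refine ⟨(1 / 2) ^ (n * M) * (min c 1) ^ (n * (M + 1)), B * n0, by positivity, ?_, by nlinarith, ?_⟩
  · exact mul_le_one₀ (pow_le_one₀ (by norm_num) (by norm_num)) (by positivity)
      (pow_le_one₀ hc0.le hc1)
  intro e s L D η hη hs hL hOk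
  obtain ⟨r, hr⟩ : ∃ r, r = s / B := ⟨_, rfl⟩
  have r1 : n0 ≤ r := by
    rw [hr, Int.le_ediv_iff_mul_le (by omega)]
    linarith
  have r2 : B * r ≤ s := by
    rw [hr]; exact Int.mul_ediv_self_le (by omega)
  have r3 : s < B * r + B := by
    have := Int.lt_mul_ediv_self_add (x := s) (k := B) (by omega)
    rw [hr]; exact this
  have hr1 : 1 ≤ r := by omega
  clear hr
  obtain ⟨R, hR⟩ : ∃ R, R = K0 * r := ⟨_, rfl⟩
  obtain ⟨m, hm⟩ : ∃ m, m = 2 * R := ⟨_, rfl⟩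
  have hrR : r ≤ R := by rw [hR]; nlinarith
  have hR0 : 0 < R := by omega
  have hm0 : 0 < m := by omega
  have hBm : B * r = (5 * n + 2) * m := by rw [hB, hm, hR]; ring
  have hSc : L.toFinset.card ≤ n := (List.toFinset_card_le L).trans hL
  obtain ⟨t, ν, P, g, hν'⟩ := geo_exists (κ := κ) (D := D) hr1 hrR hm hSc
    (by rw [← hBm]; exact r2) (fun X hX => hOk X (by rw [List.mem_toFinset] at hX; exact hX))
  have hν : ∀ X ∈ L.toFinset, ν X ≤ M := by
    intro X hX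
    have h5 := hν' X hX
    have h6 : s ≤ 2 * (5 * n + 2) * m := by
      have : (1 : ℤ) * B ≤ r * B := mul_le_mul_of_nonneg_right hr1 (by omega)
      linarith
    have h7 : (κ : ℤ) * s ≤ κ * (2 * (5 * n + 2) * m) := mul_le_mul_of_nonneg_left h6 (by positivity)
    have h8 : (ν X : ℤ) * m ≤ (M : ℤ) * m := by
      rw [hM]
      push_cast
      linarith
    exact_mod_cast le_of_mul_le_mul_right h8 hm0
  have key := net_ge (Q := Q) (D := D) (η := η) hQ hQ1 hη (e := e) (N := NN L.toFinset t ν P)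
    (I := II L.toFinset t ν P) (r := r) (R := R) hc.le hrR
    (fun z ζ hζ => hhalf (!e) z r R ζ hr1 hR.ge hζ) ?_ g.boxD g.armD g.box_disj g.arm_disj
    g.arm_node arm_sub
  · -- the conclusion
    have hle : (1 / 2 : ℝ) ^ (n * M) * (min c 1) ^ (n * (M + 1)) ≤
        (1 / 2) ^ (NN L.toFinset t ν P).card * c ^ (II L.toFinset t ν P).card := by
      refine mul_le_mul (pow_le_pow_of_le_one (by norm_num) (by norm_num) (NN_card hSc hν)) ?_
        (by positivity) (by positivity)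
      exact (pow_le_pow_of_le_one hc0.le hc1 (II_card hSc hν)).trans
        (pow_le_pow_left₀ hc0.le (min_le_left _ _) _)
    refine hle.trans (key.trans (Pr_mono hQ ?_))
    rintro ω ⟨hω1, hω2⟩ X hXL
    exact g.cross hω1 hω2 (List.mem_toFinset.2 hXL)
  · -- crossings of the rectangles
    intro α hα
    obtain ⟨X, hX, k, hk, rfl⟩ := memI.1 hα
    have h1 := g.p3 X hX k hk
    refine hV e X.d _ _ _ _ h1.1 (by simp only [mkArm]; omega) ?_
    simp only [mkArm]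
    rw [Int.toNat_of_nonneg (by omega)]
    have h2 : 2 * m = 2 * K0 * ((t X + r) - (t X - r)) := by rw [hm, hR]; ring
    linarith [h1.2]

end Vale.Agent.P167.H990
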