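import Vale.Agent.P167.H262.R0
import Vale.Agent.P167.H816.Stop
import Vale.Agent.P167.H704.Rc

/-!
# P167: rectangles with rough ends, both colours and both directions

`lg d`, `tg d`: the longitudinal and the transversal coordinate (`d = true`: horizontal);
`ar d x y lo hi`: the squares of a rectangle, `side`: the sites of a short side, `CE e E A B`: `A` and
`B` are joined by squares of `E` of the colour `e`. `VRt`: the crossing probabilities of rectangles
with the colour `e` outside are bounded below. `rough_ar`: the same with rough ends, for all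
configurations outside.
-/

set_option autoImplicit false

namespace Vale.Agent.P167.H990

open Finset Vale.Agent.P167.FK Vale.Agent.P167.FKA Vale.Agent.P167.H262
open Vale.Agent.P167.H632 (cs pr cs_true cs_false)
open Relation (ReflTransGen)
open Vale.Agent.P145.FB (PStep PConn)

/-- Points. -/
abbrev Pt : Type := ℤ × ℤ

/-- The longitudinal coordinate. -/
def lg (d : Bool) (v : Pt) : ℤ := if d then v.1 else v.2

/-- The transversal coordinate. -/
def tg (d : Bool) (v : Pt) : ℤ := if d then v.2 else v.1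

/-- The squares of a rectangle. -/
noncomputable def ar (d : Bool) (x y lo hi : ℤ) : Finset Pt :=
  if d then Rsq x y lo hi else Rsq lo hi x y

theorem mem_ar {d : Bool} {x y lo hi : ℤ} {v : Pt} :
    v ∈ ar d x y lo hi ↔ x ≤ lg d v ∧ lg d v < y ∧ lo ≤ tg d v ∧ tg d v < hi := by
  cases d
  · simp only [ar, lg, tg, Bool.false_eq_true, if_false, mem_Rsq]
    tauto
  · simp only [ar, lg, tg, if_true, mem_Rsq]

/-- The sites of the colour `e` on a side. -/
def side (d e : Bool) (x lo hi : ℤ) : Set Pt :=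
  {s | lg d s = x ∧ lo ≤ tg d s ∧ tg d s ≤ hi ∧ (s.1 + s.2) % 2 = pr e}

/-- `A` and `B` are joined by squares of `E` of the colour `e`. -/
def CE (e : Bool) (E : Finset Pt) (A B : Set Pt) : Set Cfg :=
  {ω | ∃ u ∈ A, ∃ v ∈ B, ReflTransGen (PStep (cs e ω ∩ ↑E)) u v}

theorem CE_true (E : Finset Pt) (A B : Set Pt) : CE true E A B = CI E A B := rfl

theorem CE_false (E : Finset Pt) (A B : Set Pt) : CE false E A B = CD E A B := by
  ext ω
  simp only [CE, CD, cs_false]

/-- The constant configuration. -/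
def ec (e : Bool) : Cfg := fun _ => e

theorem good_ec (e : Bool) : Good (ec e) := by
  cases e
  · exact f_good.2.1
  · exact f_good.2.2

/-- Crossings of rectangles when the outside has the colour `e` (the worst case). -/
def VRt (Q : ℝ) : Prop := ∀ k : ℕ, ∃ (c : ℝ) (n0 : ℤ), 0 < c ∧ 1 ≤ n0 ∧
  ∀ (e d : Bool) (x y lo hi : ℤ), x ≤ y → n0 ≤ hi - lo → y - x ≤ k * (hi - lo) →
    c ≤ Pr Q (ar d x y lo hi) (ec e)
      (CE e (ar d x y lo hi) (side d e x lo hi) (side d e y lo hi))

theorem side_sub_P {d : Bool} {x y lo hi X : ℤ} (hX : X = x ∨ X = y) :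
    side d true X lo hi ⊆ Pb (ar d x y lo hi) := by
  rintro s ⟨h1, h2, h3, h4⟩
  have he : Even (s.1 + s.2) := by
    rw [Int.even_iff]; simpa [pr] using h4
  cases d
  · simp only [lg, tg, Bool.false_eq_true, if_false] at h1 h2 h3
    simp only [ar, Bool.false_eq_true, if_false]
    exact mem_Pb_rect he (by omega)
  · simp only [lg, tg, if_true] at h1 h2 h3
    simp only [ar, if_true]
    exact mem_Pb_rect he (by omega)

theorem side_sub_D {d : Bool} {x y lo hi X : ℤ} (hX : X = x ∨ X = y) :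
    side d false X lo hi ⊆ Db (ar d x y lo hi) := by
  rintro s ⟨h1, h2, h3, h4⟩
  have he : Odd (s.1 + s.2) := by
    rw [Int.odd_iff]; simpa [pr] using h4
  cases d
  · simp only [lg, tg, Bool.false_eq_true, if_false] at h1 h2 h3
    simp only [ar, Bool.false_eq_true, if_false]
    exact mem_Db_rect he (by omega)
  · simp only [lg, tg, if_true] at h1 h2 h3
    simp only [ar, if_true]
    exact mem_Db_rect he (by omega)

theorem cor_pa (v : Pt) : Cor v (pa v) := by
  unfold Cor pa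
  split_ifs <;> simp

theorem cor_pb (v : Pt) : Cor v (pb v) := by
  unfold Cor pb
  split_ifs <;> simp

theorem cor_da (v : Pt) : Cor v (da v) := by
  unfold Cor da
  split_ifs <;> simp

theorem cor_db (v : Pt) : Cor v (db v) := by
  unfold Cor db
  split_ifs <;> simp

variable {Q : ℝ} {D : Finset Pt} {η : Cfg}

/-- **Rectangles with rough ends.** -/
theorem rough_ar (hQ : 0 < Q) (hQ1 : Q ≤ 1) (hη : Good η) {e d : Bool} {x y lo hi : ℤ}
    {A' B' : Set Pt} (hA : side d e x lo hi ⊆ A') (hB : side d e y lo hi ⊆ B') {L : Finset Pt}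
    (hL : ∀ v ∈ L, v ∈ ar d x y lo hi → (∀ s, Cor v s → (s.1 + s.2) % 2 = pr e → s ∈ A') ∨
      (∀ s, Cor v s → (s.1 + s.2) % 2 = pr e → s ∈ B')) (hD : ar d x y lo hi \ L ⊆ D) :
    Pr Q (ar d x y lo hi) (ec e)
      (CE e (ar d x y lo hi) (side d e x lo hi) (side d e y lo hi)) ≤
    Pr Q D η (CE e (ar d x y lo hi \ L) A' B') := by
  cases e
  · have hp : ∀ {s : Pt}, Odd (s.1 + s.2) → (s.1 + s.2) % 2 = pr false := by
      intro s hs
      rw [Int.odd_iff] at hs
      simpa [pr] using hs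
    have hL' : ∀ v ∈ L, v ∈ ar d x y lo hi → (da v ∈ A' ∧ db v ∈ A') ∨ (da v ∈ B' ∧ db v ∈ B') := by
      intro v hv hv'
      rcases hL v hv hv' with h | h
      · exact Or.inl ⟨h _ (cor_da v) (hp (H816.odd_da v)), h _ (cor_db v) (hp (H816.odd_db v))⟩
      · exact Or.inr ⟨h _ (cor_da v) (hp (H816.odd_da v)), h _ (cor_db v) (hp (H816.odd_db v))⟩
    rw [CE_false, CE_false]
    have hsA := side_sub_D (d := d) (x := x) (y := y) (lo := lo) (hi := hi) (X := x) (Or.inl rfl)
    have hsB := side_sub_D (d := d) (x := x) (y := y) (lo := lo) (hi := hi) (X := y) (Or.inr rfl)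
    unfold ar at hsA hsB hL' hD ⊢
    cases d
    · exact rough_rect_dual hQ hQ1 hη hsA hsB hA hB hL' hD
    · exact rough_rect_dual hQ hQ1 hη hsA hsB hA hB hL' hD
  · have hp : ∀ {s : Pt}, Even (s.1 + s.2) → (s.1 + s.2) % 2 = pr true := by
      intro s hs
      rw [Int.even_iff] at hs
      simpa [pr] using hs
    have hL' : ∀ v ∈ L, v ∈ ar d x y lo hi → (pa v ∈ A' ∧ pb v ∈ A') ∨ (pa v ∈ B' ∧ pb v ∈ B') := by
      intro v hv hv'
      rcases hL v hv hv' with h | h
      · exact Or.inl ⟨h _ (cor_pa v) (hp (H816.even_pa v)), h _ (cor_pb v) (hp (H816.even_pb v))⟩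
      · exact Or.inr ⟨h _ (cor_pa v) (hp (H816.even_pa v)), h _ (cor_pb v) (hp (H816.even_pb v))⟩
    rw [CE_true, CE_true]
    have hsA := side_sub_P (d := d) (x := x) (y := y) (lo := lo) (hi := hi) (X := x) (Or.inl rfl)
    have hsB := side_sub_P (d := d) (x := x) (y := y) (lo := lo) (hi := hi) (X := y) (Or.inr rfl)
    unfold ar at hsA hsB hL' hD ⊢
    cases d
    · exact rough_rect hQ hQ1 hη hsA hsB hA hB hL' hD
    · exact rough_rect hQ hQ1 hη hsA hsB hA hB hL' hD

/-! ### Events in disjoint sets of squares -/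

theorem CE_loc {e : Bool} {E : Finset Pt} {A B : Set Pt} {ω ω' : Cfg}
    (h : ∀ v ∈ E, ω v = ω' v) : ω ∈ CE e E A B ↔ ω' ∈ CE e E A B := by
  have key : ∀ ω ω' : Cfg, (∀ v ∈ E, ω v = ω' v) → ω ∈ CE e E A B → ω' ∈ CE e E A B := by
    rintro ω ω' h ⟨u, hu, v, hv, huv⟩
    refine ⟨u, hu, v, hv, ?_⟩
    clear hv
    induction huv with
    | refl => exact ReflTransGen.refl
    | @tail a b _ hab ih =>
      refine ih.tail ⟨hab.1, hab.2.1, ?_, hab.2.2.2⟩
      have h1 : ω _ = e := hab.2.2.1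
      show ω' _ = e
      rw [← h _ (Finset.mem_coe.1 hab.2.2.2)]
      exact h1
  exact ⟨key ω ω' h, key ω' ω fun v hv => (h v hv).symm⟩

/-- Events in disjoint sets of squares, each with a lower bound which is uniform in the outside. -/
theorem prod_ge {ι : Type*} (hQ : 0 < Q) (hη : Good η) {c : ℝ} (hc : 0 ≤ c) (I : Finset ι)
    (E : ι → Finset Pt) (F : ι → Set Cfg) (hE : ∀ i ∈ I, E i ⊆ D)
    (hd : ∀ i ∈ I, ∀ j ∈ I, i ≠ j → Disjoint (E i) (E j))
    (hF : ∀ i ∈ I, ∀ ω ω' : Cfg, (∀ v ∈ E i, ω v = ω' v) → (ω ∈ F i ↔ ω' ∈ F i))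
    (h : ∀ i ∈ I, ∀ ζ : Cfg, Good ζ → c ≤ Pr Q (E i) ζ (F i)) :
    c ^ I.card ≤ Pr Q D η {ω | ∀ i ∈ I, ω ∈ F i} := by
  classical
  induction I using Finset.induction_on with
  | empty =>
    have e1 : {ω : Cfg | ∀ i ∈ (∅ : Finset ι), ω ∈ F i} = Set.univ := by
      ext ω; simp
    rw [e1, card_empty, pow_zero]
    unfold Pr
    rw [Set.indicator_univ]
    exact (Ex_const hQ 1).ge
  | insert i I hi ih =>
    have ih' := ih (fun j hj => hE j (mem_insert_of_mem hj))
      (fun j hj k hk => hd j (mem_insert_of_mem hj) k (mem_insert_of_mem hk))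
      (fun j hj => hF j (mem_insert_of_mem hj)) fun j hj => h j (mem_insert_of_mem hj)
    have hEi := hE i (mem_insert_self i I)
    rw [card_insert_of_notMem hi, pow_succ']
    have hG : Ind (E i) ({ω : Cfg | ∀ j ∈ I, ω ∈ F j}.indicator (1 : Cfg → ℝ)) := by
      intro ω ω' hω
      have h1 : ω ∈ {ω : Cfg | ∀ j ∈ I, ω ∈ F j} ↔ ω' ∈ {ω : Cfg | ∀ j ∈ I, ω ∈ F j} := by
        refine forall₂_congr fun j hj => hF j (mem_insert_of_mem hj) ω ω' fun v hv => hω v ?_
        have h2 := hd j (mem_insert_of_mem hj) i (mem_insert_self i I) (fun h => hi (h ▸ hj))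
        exact Finset.disjoint_left.1 h2 hv
      by_cases h2 : ω ∈ {ω : Cfg | ∀ j ∈ I, ω ∈ F j}
      · rw [Set.indicator_of_mem h2, Set.indicator_of_mem (h1.1 h2)]
        rfl
      · rw [Set.indicator_of_notMem h2, Set.indicator_of_notMem fun h3 => h2 (h1.2 h3)]
    have e1 : {ω : Cfg | ∀ j ∈ insert i I, ω ∈ F j} = {ω : Cfg | ∀ j ∈ I, ω ∈ F j} ∩ F i := by
      ext ω
      simp only [Set.mem_ofPred_eq, Set.mem_inter_iff, mem_insert, forall_eq_or_imp]
      exact and_comm
    have e2 : Pr Q D η ({ω : Cfg | ∀ j ∈ I, ω ∈ F j} ∩ F i) = Ex Q D η (fun ω =>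
        {ω : Cfg | ∀ j ∈ I, ω ∈ F j}.indicator 1 ω * (F i).indicator 1 ω) :=
      Ex_congr fun S _ => ind_inter _ _ _
    have e3 : Pr Q D η {ω : Cfg | ∀ j ∈ I, ω ∈ F j} = Ex Q D η (fun ω =>
        {ω : Cfg | ∀ j ∈ I, ω ∈ F j}.indicator 1 ω) := rfl
    rw [e1, e2]
    refine (mul_le_mul_of_nonneg_left ih' hc).trans ?_
    rw [e3, FKA.markov H259.f_markov hQ hEi hη hG, ← Ex_mul_left]
    refine Ex_mono hQ fun S _ => ?_
    rw [mul_comm c]
    exact mul_le_mul_of_nonneg_left
      (h i (mem_insert_self i I) _ (f_good.1 D η S hη)) (ind_nonneg _ _)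

end Vale.Agent.P167.H990
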