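import Vale.Agent.P167.H990.Ar

/-!
# P167: the cluster of an inner box, nets

`KS f z r R ω`: the sites which are joined to the box `(z, r)` inside of the box `(z, R)` by the colour
`f`; `US`: the squares with a corner in it; `AR`: the cluster reaches the boundary of the outer box.
`net_ge`: no arms at the nodes and all the rough rectangles between the nodes are crossed, with a
probability bounded below.
-/

set_option autoImplicit false

namespace Vale.Agent.P167.H990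

open Finset Vale.Agent.P167.FK Vale.Agent.P167.FKA Vale.Agent.P167.H262
open Vale.Agent.P167.H632 (cs pr cs_true cs_false bl nm_le le_nm)
open Relation (ReflTransGen)
open Vale.Agent.P145.FB (PStep PConn)

/-- The cluster of the inner box. -/
def KS (f : Bool) (z : Pt) (r R : ℤ) (ω : Cfg) : Set Pt :=
  {s | ∃ u : Pt, (u.1 + u.2) % 2 = pr f ∧ nm (u - z) ≤ r ∧ PConn (cs f ω) (bl z R) u s}

/-- The squares which touch the cluster. -/
def US (f : Bool) (z : Pt) (r R : ℤ) (ω : Cfg) : Set Pt := {v | ∃ s ∈ KS f z r R ω, Cor v s}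

/-- The cluster of the inner box reaches the boundary of the outer box. -/
def AR (f : Bool) (z : Pt) (r R : ℤ) : Set Cfg := {ω | ∃ s ∈ KS f z r R ω, R ≤ nm (s - z)}

variable {f : Bool} {z : Pt} {r R : ℤ} {ω ω' : Cfg}

theorem KS_tail {s t : Pt} (hs : s ∈ KS f z r R ω) (h : PStep (cs f ω) s t) (ht : t ∈ bl z R) :
    t ∈ KS f z r R ω := by
  obtain ⟨u, h1, h2, h3⟩ := hs
  exact ⟨u, h1, h2, h3.tail h ht⟩

theorem KS_trans {s t : Pt} (hs : s ∈ KS f z r R ω) (h : PConn (cs f ω) (bl z R) s t) :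
    t ∈ KS f z r R ω := by
  obtain ⟨u, h1, h2, h3⟩ := hs
  exact ⟨u, h1, h2, h3.trans h⟩

theorem KS_inner {s : Pt} (hrR : r ≤ R) (hs : nm (s - z) ≤ r) (hp : (s.1 + s.2) % 2 = pr f) :
    s ∈ KS f z r R ω := ⟨s, hp, hs, PConn.refl (show nm (s - z) ≤ R by omega)⟩

theorem KS_bl {s : Pt} (hs : s ∈ KS f z r R ω) : nm (s - z) ≤ R := by
  obtain ⟨u, -, -, h⟩ := hs
  exact h.right_mem

theorem KS_par {s : Pt} (hs : s ∈ KS f z r R ω) : (s.1 + s.2) % 2 = pr f := by
  obtain ⟨u, h1, -, h⟩ := hs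
  rw [← h1]
  exact h.parity.symm

theorem KS_lt {s : Pt} (hω : ω ∉ AR f z r R) (hs : s ∈ KS f z r R ω) : nm (s - z) < R := by
  by_contra h
  exact hω ⟨s, hs, by omega⟩

theorem US_sub (hω : ω ∉ AR f z r R) {v : Pt} (hv : v ∈ US f z r R ω) : v ∈ Bq z R := by
  obtain ⟨s, hs, hc⟩ := hv
  have h1 : nm (s - z) ≤ R - 1 := by have := KS_lt hω hs; omega
  rw [nm_le] at h1
  simp only [Prod.fst_sub, Prod.snd_sub] at h1
  obtain ⟨c1, c2⟩ := hc
  simp only [Bq, Finset.mem_product, Finset.mem_Ico]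
  omega

/-- The squares of the inner box touch the cluster. -/
theorem US_inner (hrR : r ≤ R) {v : Pt} (hv : v ∈ Bq z r) : v ∈ US f z r R ω := by
  simp only [Bq, Finset.mem_product, Finset.mem_Ico] at hv
  have hor : pr f = 0 ∨ pr f = 1 := H632.pr_or f
  rcases Int.emod_two_eq_zero_or_one (v.1 + v.2 - pr f) with h | h
  · refine ⟨v, KS_inner hrR ?_ (by omega), by unfold Cor; simp⟩
    rw [nm_le]
    simp only [Prod.fst_sub, Prod.snd_sub]
    omega
  · refine ⟨(v.1 + 1, v.2), KS_inner hrR ?_ (by simp only; omega), by unfold Cor; simp⟩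
    rw [nm_le]
    simp only [Prod.fst_sub, Prod.snd_sub]
    omega

/-- The cluster is determined by the squares which touch it. -/
theorem KS_self (h : ∀ v ∈ US f z r R ω, ω v = ω' v) : KS f z r R ω' = KS f z r R ω := by
  apply Set.Subset.antisymm
  · rintro s ⟨u, h1, h2, h3, h4⟩
    induction h4 with
    | refl => exact ⟨u, h1, h2, PConn.refl h3⟩
    | @tail a b _ hab ih =>
      refine KS_tail ih ⟨hab.1.1, hab.1.2.1, ?_⟩ hab.2
      have h5 : ω' _ = f := hab.1.2.2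
      show ω _ = f
      rw [h _ ⟨a, ih, (cor_of_step hab.1).1⟩]
      exact h5
  · rintro s ⟨u, h1, h2, h3, h4⟩
    have key : s ∈ KS f z r R ω ∧ s ∈ KS f z r R ω' := by
      induction h4 with
      | refl => exact ⟨⟨u, h1, h2, PConn.refl h3⟩, ⟨u, h1, h2, PConn.refl h3⟩⟩
      | @tail a b _ hab ih =>
        refine ⟨KS_tail ih.1 hab.1 hab.2, KS_tail ih.2 ⟨hab.1.1, hab.1.2.1, ?_⟩ hab.2⟩
        have h5 : ω _ = f := hab.1.2.2
        show ω' _ = f
        rw [← h _ ⟨a, ih.1, (cor_of_step hab.1).1⟩]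
        exact h5
    exact key.2

theorem US_self (h : ∀ v ∈ US f z r R ω, ω v = ω' v) : US f z r R ω' = US f z r R ω := by
  unfold US
  rw [KS_self h]

theorem AR_self (h : ∀ v ∈ US f z r R ω, ω v = ω' v) : ω ∈ AR f z r R ↔ ω' ∈ AR f z r R := by
  unfold AR
  simp only [Set.mem_ofPred_eq]
  rw [KS_self h]

theorem sq_Bq {s t : Pt} {F : Set Pt} (hs : nm (s - z) ≤ R) (ht : nm (t - z) ≤ R)
    (h : PStep F s t) : (min s.1 t.1, min s.2 t.2) ∈ Bq z R := by
  rw [nm_le] at hs ht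
  simp only [Prod.fst_sub, Prod.snd_sub] at hs ht
  obtain ⟨h1, h2, -⟩ := h
  simp only [Bq, Finset.mem_product, Finset.mem_Ico]
  omega

theorem AR_loc (h : ∀ v ∈ Bq z R, ω v = ω' v) : ω ∈ AR f z r R ↔ ω' ∈ AR f z r R := by
  have key : ∀ ω ω' : Cfg, (∀ v ∈ Bq z R, ω v = ω' v) → ω ∈ AR f z r R → ω' ∈ AR f z r R := by
    rintro ω ω' h ⟨s, ⟨u, h1, h2, h3, h4⟩, h5⟩
    refine ⟨s, ⟨u, h1, h2, ?_⟩, h5⟩
    clear h5
    induction h4 with
    | refl => exact PConn.refl h3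
    | @tail a b _ hab ih =>
      refine ih.tail ⟨hab.1.1, hab.1.2.1, ?_⟩ hab.2
      have h6 : ω _ = f := hab.1.2.2
      show ω' _ = f
      rw [← h _ (sq_Bq ih.right_mem hab.2 hab.1)]
      exact h6
  exact ⟨key ω ω' h, key ω' ω fun v hv => (h v hv).symm⟩

/-! ### Arms -/

theorem AR_true : AR true z r R = {ω | ArmPx z r R ω} := by
  ext ω
  constructor
  · rintro ⟨s, ⟨u, h1, h2, h3⟩, h4⟩
    refine ⟨u, s, ?_, h2, h4, h3⟩
    rw [Int.even_iff]
    simpa [pr] using h1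
  · rintro ⟨u, s, h1, h2, h4, h3⟩
    refine ⟨s, ⟨u, ?_, h2, h3⟩, h4⟩
    rw [Int.even_iff] at h1
    simpa [pr] using h1

theorem AR_false : AR false z r R = {ω | ArmDx z r R ω} := by
  ext ω
  constructor
  · rintro ⟨s, ⟨u, h1, h2, h3⟩, h4⟩
    refine ⟨u, s, ?_, h2, h4, by rw [← cs_false]; exact h3⟩
    rw [Int.odd_iff]
    simpa [pr] using h1
  · rintro ⟨u, s, h1, h2, h4, h3⟩
    refine ⟨s, ⟨u, ?_, h2, by rw [cs_false]; exact h3⟩, h4⟩
    rw [Int.odd_iff] at h1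
    simpa [pr] using h1

/-- The probability of arms is small at a large ratio. -/
theorem arm_half {Q : ℝ} (hQ : 0 < Q)
    (hA : ∃ α C : ℝ, 0 < α ∧ 0 < C ∧ ArmDec Q α C ∧ ArmDecD Q α C) :
    ∃ K0 : ℤ, 1 ≤ K0 ∧ ∀ (f : Bool) (z : Pt) (r R : ℤ) (ζ : Cfg), 1 ≤ r → K0 * r ≤ R → Good ζ →
      1 / 2 ≤ Pr Q (Bq z R) ζ (AR f z r R)ᶜ := by
  obtain ⟨α, C, hα, hC, hP, hD⟩ := hA
  obtain ⟨n, hn, hn1⟩ : ∃ n : ℕ, C * ((1 : ℝ) / n) ^ α ≤ 1 / 2 ∧ 1 ≤ n := by
    have h1 : Filter.Tendsto (fun n : ℕ => C * ((1 : ℝ) / n) ^ α) Filter.atTop (nhds 0) := by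
      have h2 : Filter.Tendsto (fun n : ℕ => (1 : ℝ) / n) Filter.atTop (nhds 0) :=
        tendsto_const_div_atTop_nhds_zero_nat 1
      have h3 := (h2.rpow_const (p := α) (Or.inr hα.le)).const_mul C
      rw [Real.zero_rpow hα.ne', mul_zero] at h3
      exact h3
    obtain ⟨n, h2, h3⟩ := ((h1.eventually (ge_mem_nhds (show (0 : ℝ) < 1 / 2 by norm_num))).and
      (Filter.eventually_ge_atTop 1)).exists
    exact ⟨n, h2, h3⟩
  refine ⟨n, by exact_mod_cast hn1, fun f z r R ζ hr hR hζ => ?_⟩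
  have hr' : (1 : ℝ) ≤ r := by exact_mod_cast hr
  have hn' : (1 : ℝ) ≤ n := by exact_mod_cast hn1
  have hR' : (n : ℝ) * r ≤ R := by exact_mod_cast hR
  have hrR : r ≤ R := by
    have : (1 : ℤ) ≤ n := by exact_mod_cast hn1
    nlinarith
  have hR0 : (0 : ℝ) < R := by nlinarith
  have hb : C * ((r : ℝ) / R) ^ α ≤ 1 / 2 := by
    refine le_trans (mul_le_mul_of_nonneg_left (Real.rpow_le_rpow (by positivity) ?_ hα.le) hC.le) hn
    rw [div_le_div_iff₀ hR0 (by linarith)]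
    linarith
  have key : Pr Q (Bq z R) ζ (AR f z r R) ≤ 1 / 2 := by
    refine le_trans ?_ hb
    cases f
    · rw [AR_false]
      have h1 := hD z r R (Bq z R) ζ (fun _ => 1) hr hrR hζ Finset.sdiff_subset
        (fun _ => zero_le_one) fun _ _ _ => rfl
      simp only [one_mul] at h1
      rwa [Ex_const hQ, mul_one] at h1
    · rw [AR_true]
      have h1 := hP z r R (Bq z R) ζ (fun _ => 1) hr hrR hζ Finset.sdiff_subset
        (fun _ => zero_le_one) fun _ _ _ => rfl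
      simp only [one_mul] at h1
      rwa [Ex_const hQ, mul_one] at h1
  rw [Pr_compl hQ]
  linarith

/-! ### Nets -/

/-- The sites of the colour `e` which are corners of the squares which touch the cluster. -/
def YS (e : Bool) (z : Pt) (r R : ℤ) (ω : Cfg) : Set Pt :=
  {s | (s.1 + s.2) % 2 = pr e ∧ ∃ v ∈ US (!e) z r R ω, Cor v s}

/-- The squares which touch the cluster of some node. -/
def UN (e : Bool) (N : Finset Pt) (r R : ℤ) (ω : Cfg) : Set Pt :=
  {v | ∃ z ∈ N, v ∈ US (!e) z r R ω}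

/-- A rectangle of the net: direction, ends, position, nodes at the two ends. -/
structure Arm where
  /-- direction -/
  d : Bool
  /-- first end -/
  x : ℤ
  /-- second end -/
  y : ℤ
  /-- position -/
  t : ℤ
  /-- the nodes at the first end -/
  l : Finset Pt
  /-- the nodes at the second end -/
  n : Finset Pt
  deriving DecidableEq

/-- The squares. -/
noncomputable def Arm.sq (r : ℤ) (α : Arm) : Finset Pt := ar α.d α.x α.y (α.t - r) (α.t + r)

/-- The sites from which the path may start. -/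
def Arm.A (e : Bool) (r R : ℤ) (ω : Cfg) (α : Arm) : Set Pt :=
  {s | s ∈ side α.d e α.x (α.t - r) (α.t + r) ∨ ∃ z ∈ α.l, s ∈ YS e z r R ω}

/-- The sites at which the path may end. -/
def Arm.B (e : Bool) (r R : ℤ) (ω : Cfg) (α : Arm) : Set Pt :=
  {s | s ∈ side α.d e α.y (α.t - r) (α.t + r) ∨ ∃ z ∈ α.n, s ∈ YS e z r R ω}

open Classical in
/-- The unexplored squares of the arm. -/
noncomputable def Arm.fr (e : Bool) (N : Finset Pt) (r R : ℤ) (ω : Cfg) (α : Arm) : Finset Pt :=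
  (α.sq r).filter fun v => v ∉ UN e N r R ω

/-- The arm is crossed. -/
def Arm.Ev (e : Bool) (N : Finset Pt) (r R : ℤ) (α : Arm) : Set Cfg :=
  {ω | ω ∈ CE e (α.fr e N r R ω) (α.A e r R ω) (α.B e r R ω)}

/-- **Nets.** -/
theorem net_ge {Q : ℝ} {D : Finset Pt} {η : Cfg} (hQ : 0 < Q) (hQ1 : Q ≤ 1) (hη : Good η)
    {e : Bool} {N : Finset Pt} {I : Finset Arm} {r R : ℤ} {c : ℝ} (hc : 0 ≤ c) (hrR : r ≤ R)
    (hhalf : ∀ (z : Pt) (ζ : Cfg), Good ζ → 1 / 2 ≤ Pr Q (Bq z R) ζ (AR (!e) z r R)ᶜ)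
    (hV : ∀ α ∈ I, c ≤ Pr Q (α.sq r) (ec e) (CE e (α.sq r) (side α.d e α.x (α.t - r) (α.t + r))
      (side α.d e α.y (α.t - r) (α.t + r))))
    (hND : ∀ z ∈ N, Bq z R ⊆ D) (hID : ∀ α ∈ I, α.sq r ⊆ D)
    (hNd : ∀ z ∈ N, ∀ z' ∈ N, z ≠ z' → Disjoint (Bq z R) (Bq z' R))
    (hId : ∀ α ∈ I, ∀ β ∈ I, α ≠ β → ∀ v ∈ α.sq r, v ∈ β.sq r → ∃ z ∈ N, v ∈ Bq z r)
    (hIN : ∀ α ∈ I, ∀ z ∈ N, ∀ v ∈ Bq z R, v ∈ α.sq r → z ∈ α.l ∨ z ∈ α.n)
    (hl : ∀ α ∈ I, α.l ⊆ N ∧ α.n ⊆ N) :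
    (1 / 2) ^ N.card * c ^ I.card ≤
      Pr Q D η {ω | (∀ z ∈ N, ω ∉ AR (!e) z r R) ∧ ∀ α ∈ I, ω ∈ α.Ev e N r R} := by
  classical
  -- the nodes
  have h1 : (1 / 2 : ℝ) ^ N.card ≤ Pr Q D η {ω | ∀ z ∈ N, ω ∈ (AR (!e) z r R)ᶜ} := by
    refine prod_ge hQ hη (by norm_num) N (fun z => Bq z R) (fun z => (AR (!e) z r R)ᶜ) hND hNd
      (fun z _ ω ω' h => not_congr (AR_loc h)) fun z _ ζ hζ => hhalf z ζ hζ
  set E : Cfg → Finset Pt := fun ω => D.filter fun v => v ∉ UN e N r R ω with hE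
  have hagree : ∀ {ω ω' : Cfg}, (∀ v, v ∉ E ω → ω v = ω' v) → ∀ z ∈ N,
      ∀ v ∈ US (!e) z r R ω, ω v = ω' v := by
    intro ω ω' h z hz v hv
    refine h v fun hvE => ?_
    rw [hE, Finset.mem_filter] at hvE
    exact hvE.2 ⟨z, hz, hv⟩
  have hUN : ∀ {ω ω' : Cfg}, (∀ v, v ∉ E ω → ω v = ω' v) → UN e N r R ω' = UN e N r R ω := by
    intro ω ω' h
    ext v
    constructor
    · rintro ⟨z, hz, hv⟩
      rw [US_self (hagree h z hz)] at hv
      exact ⟨z, hz, hv⟩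
    · rintro ⟨z, hz, hv⟩
      rw [← US_self (hagree h z hz)] at hv
      exact ⟨z, hz, hv⟩
  have h2 := H816.stop_le (Q := Q) (D := D) (η := η) hQ hη (E := E)
    (A := {ω | ∀ z ∈ N, ω ∈ (AR (!e) z r R)ᶜ}) (F := {ω | ∀ α ∈ I, ω ∈ α.Ev e N r R})
    (fun ω => Finset.filter_subset _ _) ?_ ?_ (c := c ^ I.card) ?_
  · have e1 : {ω | (∀ z ∈ N, ω ∉ AR (!e) z r R) ∧ ∀ α ∈ I, ω ∈ α.Ev e N r R} =
        {ω | ∀ z ∈ N, ω ∈ (AR (!e) z r R)ᶜ} ∩ {ω | ∀ α ∈ I, ω ∈ α.Ev e N r R} := by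
      ext ω
      simp only [Set.mem_ofPred_eq, Set.mem_inter_iff, Set.mem_compl_iff]
    rw [e1, mul_comm]
    exact (mul_le_mul_of_nonneg_left h1 (by positivity)).trans h2
  · intro ω ω' h
    simp only [hE]
    rw [hUN h]
  · intro ω ω' h
    refine forall₂_congr fun z hz => not_congr ?_
    exact AR_self (hagree h z hz)
  · intro S hS hSA
    set ω0 := cf D η S with hω0
    have hg : Good ω0 := f_good.1 D η S hη
    have hSA' : ∀ z ∈ N, ω0 ∉ AR (!e) z r R := hSA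
    -- the events with the explored squares frozen
    have h3 : c ^ I.card ≤ Pr Q (E ω0) ω0 {ω | ∀ α ∈ I, ω ∈ CE e (α.fr e N r R ω0)
        (α.A e r R ω0) (α.B e r R ω0)} := by
      refine prod_ge hQ hg hc I (fun α => α.fr e N r R ω0)
        (fun α => CE e (α.fr e N r R ω0) (α.A e r R ω0) (α.B e r R ω0)) ?_ ?_
        (fun α _ ω ω' h => CE_loc h) ?_
      · intro α hα v hv
        rw [Arm.fr, Finset.mem_filter] at hv
        rw [hE, Finset.mem_filter]
        exact ⟨hID α hα hv.1, hv.2⟩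
      · intro α hα β hβ hne
        rw [Finset.disjoint_left]
        intro v hv hv'
        rw [Arm.fr, Finset.mem_filter] at hv hv'
        obtain ⟨z, hz, hvz⟩ := hId α hα β hβ hne v hv.1 hv'.1
        exact hv.2 ⟨z, hz, US_inner hrR hvz⟩
      · intro α hα ζ hζ
        have e2 : α.fr e N r R ω0 = α.sq r \ (α.sq r).filter fun v => v ∈ UN e N r R ω0 := by
          ext v
          simp only [Arm.fr, Finset.mem_filter, Finset.mem_sdiff, not_and]
          constructor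
          · rintro ⟨a1, a2⟩
            exact ⟨a1, fun _ => a2⟩
          · rintro ⟨a1, a2⟩
            exact ⟨a1, a2 a1⟩
        rw [e2]
        refine (hV α hα).trans (rough_ar hQ hQ1 hζ (fun s hs => Or.inl hs) (fun s hs => Or.inl hs)
          ?_ (Finset.Subset.refl _))
        intro v hv hvS
        rw [Finset.mem_filter] at hv
        obtain ⟨z, hz, hvz⟩ := hv.2
        rcases hIN α hα z hz v (US_sub (hSA' z hz) hvz) hv.1 with h4 | h4
        · exact Or.inl fun s hs hp => Or.inr ⟨z, h4, hp, v, hvz, hs⟩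
        · exact Or.inr fun s hs hp => Or.inr ⟨z, h4, hp, v, hvz, hs⟩
    refine h3.trans (Ex_mono hQ fun S' hS' => ?_)
    have h5 : ∀ v, v ∉ E ω0 → ω0 v = cf (E ω0) ω0 S' v := fun v hv => (cf_out hv).symm
    have e3 := hUN h5
    by_cases h6 : cf (E ω0) ω0 S' ∈ {ω | ∀ α ∈ I, ω ∈ CE e (α.fr e N r R ω0)
        (α.A e r R ω0) (α.B e r R ω0)}
    · have h7 : cf (E ω0) ω0 S' ∈ {ω | ∀ α ∈ I, ω ∈ α.Ev e N r R} := by
        intro α hα
        have h8 := h6 α hα
        have a0 : α.fr e N r R (cf (E ω0) ω0 S') = α.fr e N r R ω0 := by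
          simp only [Arm.fr, e3]
        have aY : ∀ z ∈ N, YS e z r R (cf (E ω0) ω0 S') = YS e z r R ω0 := by
          intro z hz
          simp only [YS, US_self (hagree h5 z hz)]
        have aA : α.A e r R (cf (E ω0) ω0 S') = α.A e r R ω0 := by
          ext s
          refine or_congr Iff.rfl (exists_congr fun z => and_congr_right fun hz => ?_)
          rw [aY z ((hl α hα).1 hz)]
        have aB : α.B e r R (cf (E ω0) ω0 S') = α.B e r R ω0 := by
          ext s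
          refine or_congr Iff.rfl (exists_congr fun z => and_congr_right fun hz => ?_)
          rw [aY z ((hl α hα).2 hz)]
        show cf (E ω0) ω0 S' ∈ CE e _ _ _
        rw [a0, aA, aB]
        exact h8
      rw [Set.indicator_of_mem h6, Set.indicator_of_mem h7]
    · rw [Set.indicator_of_notMem h6]
      exact ind_nonneg _ _

end Vale.Agent.P167.H990
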