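import Vale.Agent.P167.H990.Clus

/-!
# P167: nets, the deterministic part

`Cx d e l0 l1 t0 t1`: the rectangle is crossed by the colour `e` in the direction `d`. `chain`: if there
are no arms at the nodes of a strip and its arms are crossed then the rectangle is crossed.
-/

set_option autoImplicit false

namespace Vale.Agent.P167.H990

open Finset Vale.Agent.P167.FK Vale.Agent.P167.FKA Vale.Agent.P167.H262
open Vale.Agent.P167.H632 (cs pr cs_true cs_false cs_compl pr_not pr_or bl nm_le le_nm Sc_compl' first_exit)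
open Relation (ReflTransGen)
open Vale.Agent.P145.FB (PStep PConn lift hard)
open Vale.Agent.P153.Topo
open Vale.Agent.P167.H704 (Hc Vc)

/-- The sites of a rectangle. -/
def Rc (d : Bool) (l0 l1 t0 t1 : ℤ) : Set Pt := {v | l0 ≤ lg d v ∧ lg d v ≤ l1 ∧ t0 ≤ tg d v ∧ tg d v ≤ t1}

theorem Rc_true (l0 l1 t0 t1 : ℤ) : Rc true l0 l1 t0 t1 = Rect l0 l1 t0 t1 := by
  ext v
  rw [mem_rect]
  simp only [Rc, lg, tg, Set.mem_ofPred_eq, if_true]

theorem Rc_false (l0 l1 t0 t1 : ℤ) : Rc false l0 l1 t0 t1 = Rect t0 t1 l0 l1 := by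
  ext v
  rw [mem_rect]
  simp only [Rc, lg, tg, Set.mem_ofPred_eq, Bool.false_eq_true, if_false]
  tauto

/-- Crossing of a rectangle by the colour `e` in the direction `d`. -/
def Cx (d e : Bool) (l0 l1 t0 t1 : ℤ) : Set Cfg :=
  {ω | ∃ s t : Pt, lg d s = l0 ∧ lg d t = l1 ∧ (s.1 + s.2) % 2 = pr e ∧
    PConn (cs e ω) (Rc d l0 l1 t0 t1) s t}

theorem Cx_true (e : Bool) (a b p q : ℤ) : Cx true e a b p q = Hc e a b p q := by
  simp only [Cx, Rc_true]
  rfl

theorem Cx_false (e : Bool) (a b p q : ℤ) : Cx false e p q a b = Vc e a b p q := by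
  simp only [Cx, Rc_false]
  rfl

/-- The alternative, horizontal crossings. -/
theorem alt_H (e : Bool) {a b p q : ℤ} (hab : a ≤ b) (hpq : p ≤ q) (ω : Cfg) :
    ω ∈ Hc e a b p q ∨ ω ∈ Vc (!e) a b p q := by
  cases e
  · -- dual horizontal or primal vertical : exchange the coordinates
    rcases hard (Prod.swap ⁻¹' (op ω)) hpq hab with ⟨u, v, h1, h2, h3, h4⟩ | ⟨u, v, h1, h2, h3, h4⟩
    · right
      have h5 : (u.swap.1 + u.swap.2) % 2 = pr (!false) := by
        simp only [Bool.not_false, pr, if_true, Prod.fst_swap, Prod.snd_swap]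
        omega
      refine ⟨u.swap, v.swap, h1, h2, h5, h4.swap.mono ?_ ?_⟩
      · intro w hw
        simp only [Set.mem_preimage, Prod.swap_swap] at hw
        exact hw
      · intro w hw
        simp only [Set.mem_preimage, mem_rect, Prod.fst_swap, Prod.snd_swap] at hw ⊢
        omega
    · left
      have h5 : (u.swap.1 + u.swap.2) % 2 = pr false := by
        simp only [pr, Bool.false_eq_true, if_false, Prod.fst_swap, Prod.snd_swap]
        omega
      refine ⟨u.swap, v.swap, h1, h2, h5, h4.swap.mono ?_ ?_⟩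
      · intro w hw
        simp only [Set.mem_preimage, Set.mem_compl_iff, Prod.swap_swap] at hw
        rw [cs_false]
        exact hw
      · intro w hw
        simp only [Set.mem_preimage, mem_rect, Prod.fst_swap, Prod.snd_swap] at hw ⊢
        omega
  · rcases hard (op ω) hab hpq with ⟨u, v, h1, h2, h3, h4⟩ | ⟨u, v, h1, h2, h3, h4⟩
    · left
      exact ⟨u, v, h1, h2, by simpa [pr] using h3, h4⟩
    · right
      refine ⟨u, v, h1, h2, by simpa [pr] using h3, ?_⟩
      rw [Bool.not_true, cs_false]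
      exact h4

/-- The alternative. -/
theorem alt (d e : Bool) {l0 l1 t0 t1 : ℤ} (hl : l0 ≤ l1) (ht : t0 ≤ t1) (ω : Cfg) :
    ω ∈ Cx d e l0 l1 t0 t1 ∨ ω ∈ Cx (!d) (!e) t0 t1 l0 l1 := by
  cases d
  · rw [Cx_false, Bool.not_false, Cx_true]
    have h := alt_H (!e) ht hl ω
    rw [Bool.not_not] at h
    exact h.symm
  · rw [Cx_true, Bool.not_true, Cx_false]
    exact alt_H e hl ht ω

/-- Exclusion. -/
theorem excl_H {e : Bool} {a b p q : ℤ} {ω : Cfg} (h : ω ∈ Hc e a b p q)
    (h' : ω ∈ Vc (!e) a b p q) : False := by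
  obtain ⟨s, t, hs, ht, he, h1⟩ := h
  obtain ⟨s', t', hs', ht', he', h1'⟩ := h'
  rw [pr_not] at he'
  rw [← cs_compl] at h1'
  have k := lift h1 he
  have k' := lift h1' he'
  obtain ⟨z, hz, hz'⟩ := cross (a := 2 * a) (b := 2 * b) (c := 2 * p) (d := 2 * q)
    (fun z hz => hz.2) (fun z hz => hz.2) k (by dsimp only; omega) (by dsimp only; omega)
    k' (by dsimp only; omega) (by dsimp only; omega)
  have m2 := hz'.1
  rw [← Sc_compl' _ (pr_or e)] at m2
  exact m2 hz.1

theorem excl {d e : Bool} {l0 l1 t0 t1 : ℤ} {ω : Cfg} (h : ω ∈ Cx d e l0 l1 t0 t1)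
    (h' : ω ∈ Cx (!d) (!e) t0 t1 l0 l1) : False := by
  cases d
  · rw [Cx_false] at h
    rw [Bool.not_false, Cx_true] at h'
    exact excl_H (e := !e) h' (by rwa [Bool.not_not])
  · rw [Cx_true] at h
    rw [Bool.not_true, Cx_false] at h'
    exact excl_H h h'

/-! ### Connections in boxes and around sites -/

variable {F : Set Pt} {z : Pt} {r R : ℤ}

/-- If all the squares of the box have the colour then its sites of one parity are joined. -/
theorem inner_conn (hr : 1 ≤ r) (h : ∀ v ∈ Bq z r, v ∈ F) (p : ℤ) :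
    ∃ s0 : Pt, ∀ n : ℕ, 1 ≤ n → (n : ℤ) ≤ r → ∀ u : Pt, (u.1 + u.2) % 2 = p → nm (u - z) ≤ n →
      PConn F (bl z r) s0 u := by
  have hsq : ∀ v : Pt, z.1 - r ≤ v.1 → v.1 < z.1 + r → z.2 - r ≤ v.2 → v.2 < z.2 + r → v ∈ F := by
    intro v h1 h2 h3 h4
    refine h v ?_
    simp only [Bq, Finset.mem_product, Finset.mem_Ico]
    exact ⟨⟨h1, h2⟩, h3, h4⟩
  have hbl : ∀ v : Pt, z.1 - r ≤ v.1 → v.1 ≤ z.1 + r → z.2 - r ≤ v.2 → v.2 ≤ z.2 + r →
      v ∈ bl z r := by
    intro v h1 h2 h3 h4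
    rw [H632.mem_bl]
    exact ⟨h1, h2, h3, h4⟩
  obtain ⟨z1, z2⟩ := z
  dsimp only at hsq hbl
  -- the sites at distance at most one
  have base : ∃ s0 : Pt, ∀ u : Pt, (u.1 + u.2) % 2 = p → nm (u - (z1, z2)) ≤ 1 →
      PConn F (bl (z1, z2) r) s0 u := by
    by_cases hz : (z1 + z2) % 2 = p
    · refine ⟨(z1, z2), ?_⟩
      rintro ⟨u1, u2⟩ hu1 hu2
      rw [nm_le] at hu2
      simp only [Prod.fst_sub, Prod.snd_sub] at hu1 hu2
      by_cases h0 : u1 = z1 ∧ u2 = z2
      · rw [h0.1, h0.2]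
        exact PConn.refl (hbl _ (by dsimp only; omega) (by dsimp only; omega)
          (by dsimp only; omega) (by dsimp only; omega))
      · refine (PConn.refl (hbl _ (by dsimp only; omega) (by dsimp only; omega)
          (by dsimp only; omega) (by dsimp only; omega))).tail ⟨by dsimp only; omega,
            by dsimp only; omega, hsq _ (by dsimp only; omega) (by dsimp only; omega)
              (by dsimp only; omega) (by dsimp only; omega)⟩
          (hbl _ (by dsimp only; omega) (by dsimp only; omega) (by dsimp only; omega)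
            (by dsimp only; omega))
    · refine ⟨(z1 + 1, z2), ?_⟩
      have r0 : PConn F (bl (z1, z2) r) (z1 + 1, z2) (z1 + 1, z2) :=
        PConn.refl (hbl _ (by dsimp only; omega) (by dsimp only; omega)
          (by dsimp only; omega) (by dsimp only; omega))
      have r1 : PConn F (bl (z1, z2) r) (z1 + 1, z2) (z1, z2 + 1) := by
        refine r0.tail ⟨by dsimp only; omega,
            by dsimp only; omega, hsq _ (by dsimp only; omega) (by dsimp only; omega)
              (by dsimp only; omega) (by dsimp only; omega)⟩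
          (hbl _ (by dsimp only; omega) (by dsimp only; omega) (by dsimp only; omega)
            (by dsimp only; omega))
      have r2 : PConn F (bl (z1, z2) r) (z1 + 1, z2) (z1, z2 - 1) := by
        refine r0.tail ⟨by dsimp only; omega,
            by dsimp only; omega, hsq _ (by dsimp only; omega) (by dsimp only; omega)
              (by dsimp only; omega) (by dsimp only; omega)⟩
          (hbl _ (by dsimp only; omega) (by dsimp only; omega) (by dsimp only; omega)
            (by dsimp only; omega))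
      have r3 : PConn F (bl (z1, z2) r) (z1 + 1, z2) (z1 - 1, z2) := by
        refine r1.tail ⟨by dsimp only; omega,
            by dsimp only; omega, hsq _ (by dsimp only; omega) (by dsimp only; omega)
              (by dsimp only; omega) (by dsimp only; omega)⟩
          (hbl _ (by dsimp only; omega) (by dsimp only; omega) (by dsimp only; omega)
            (by dsimp only; omega))
      rintro ⟨u1, u2⟩ hu1 hu2
      rw [nm_le] at hu2
      simp only [Prod.fst_sub, Prod.snd_sub] at hu1 hu2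
      have h0 : (u1 = z1 + 1 ∧ u2 = z2) ∨ (u1 = z1 ∧ u2 = z2 + 1) ∨ (u1 = z1 ∧ u2 = z2 - 1) ∨
          (u1 = z1 - 1 ∧ u2 = z2) := by omega
      rcases h0 with ⟨rfl, rfl⟩ | ⟨rfl, rfl⟩ | ⟨rfl, rfl⟩ | ⟨rfl, rfl⟩
      · exact r0
      · exact r1
      · exact r2
      · exact r3
  obtain ⟨s0, base⟩ := base
  refine ⟨s0, fun n hn => ?_⟩
  induction n, hn using Nat.le_induction with
  | base => exact fun _ u h1 h2 => base u h1 (by simpa using h2)
  | succ n hn ih =>
    intro hnr u hup hu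
    by_cases hle : nm (u - (z1, z2)) ≤ n
    · exact ih (by push_cast at hnr; omega) u hup hle
    · obtain ⟨a, b⟩ := u
      have hd : (nm ((a, b) - (z1, z2)) ≤ n + 1) := by push_cast at hu; exact hu
      clear hu
      dsimp only at hup
      rw [nm_le] at hd hle
      simp only [Prod.fst_sub, Prod.snd_sub] at hle hd
      set a' : ℤ := if z1 < a then a - 1 else a + 1 with ha'
      set b' : ℤ := if z2 < b then b - 1 else b + 1 with hb'
      have ha : (z1 < a ∧ a' = a - 1) ∨ (a ≤ z1 ∧ a' = a + 1) := by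
        rw [ha']; split_ifs <;> omega
      have hb : (z2 < b ∧ b' = b - 1) ∨ (b ≤ z2 ∧ b' = b + 1) := by
        rw [hb']; split_ifs <;> omega
      clear_value a' b'
      have h1 := ih (by push_cast at hnr; omega) (a', b') (by dsimp only; omega)
        (by rw [nm_le]; simp only [Prod.fst_sub, Prod.snd_sub]; omega)
      push_cast at hnr
      exact h1.tail (v := (a', b')) (w := (a, b)) ⟨by dsimp only; omega, by dsimp only; omega,
        hsq _ (by dsimp only; omega) (by dsimp only; omega) (by dsimp only; omega)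
          (by dsimp only; omega)⟩
        (hbl _ (by dsimp only; omega) (by dsimp only; omega) (by dsimp only; omega)
          (by dsimp only; omega))

/-- A neighbour. -/
def Ne (s w : Pt) : Prop :=
  (w.1 = s.1 + 1 ∧ w.2 = s.2) ∨ (w.1 = s.1 - 1 ∧ w.2 = s.2) ∨ (w.1 = s.1 ∧ w.2 = s.2 + 1) ∨
    (w.1 = s.1 ∧ w.2 = s.2 - 1)

/-- The neighbours of a site are joined if the squares around it have the colour. -/
theorem ne_conn {s w w' : Pt} (hF : ∀ v, Cor v s → v ∈ F) (hs : nm (s - z) < R) (h : Ne s w)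
    (h' : Ne s w') : PConn F (bl z R) w w' := by
  obtain ⟨s1, s2⟩ := s
  obtain ⟨z1, z2⟩ := z
  have hs' : nm ((s1, s2) - (z1, z2)) ≤ R - 1 := by omega
  rw [nm_le] at hs'
  simp only [Prod.fst_sub, Prod.snd_sub] at hs'
  have hbl : ∀ v : Pt, z1 - R ≤ v.1 → v.1 ≤ z1 + R → z2 - R ≤ v.2 → v.2 ≤ z2 + R →
      v ∈ bl (z1, z2) R := by
    intro v h1 h2 h3 h4
    rw [H632.mem_bl]
    exact ⟨h1, h2, h3, h4⟩
  have hF' : ∀ v : Pt, (v.1 = s1 ∨ v.1 = s1 - 1) → (v.2 = s2 ∨ v.2 = s2 - 1) → v ∈ F := by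
    intro v h1 h2
    refine hF v ?_
    unfold Cor
    dsimp only
    omega
  have r0 : PConn F (bl (z1, z2) R) (s1 + 1, s2) (s1 + 1, s2) :=
    PConn.refl (hbl _ (by dsimp only; omega) (by dsimp only; omega)
      (by dsimp only; omega) (by dsimp only; omega))
  have r1 : PConn F (bl (z1, z2) R) (s1 + 1, s2) (s1, s2 + 1) := by
    refine r0.tail ⟨by dsimp only; omega, by dsimp only; omega,
      hF' _ (by dsimp only; omega) (by dsimp only; omega)⟩
      (hbl _ (by dsimp only; omega) (by dsimp only; omega) (by dsimp only; omega)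
        (by dsimp only; omega))
  have r2 : PConn F (bl (z1, z2) R) (s1 + 1, s2) (s1, s2 - 1) := by
    refine r0.tail ⟨by dsimp only; omega, by dsimp only; omega,
      hF' _ (by dsimp only; omega) (by dsimp only; omega)⟩
      (hbl _ (by dsimp only; omega) (by dsimp only; omega) (by dsimp only; omega)
        (by dsimp only; omega))
  have r3 : PConn F (bl (z1, z2) R) (s1 + 1, s2) (s1 - 1, s2) := by
    refine r1.tail ⟨by dsimp only; omega, by dsimp only; omega,
      hF' _ (by dsimp only; omega) (by dsimp only; omega)⟩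
      (hbl _ (by dsimp only; omega) (by dsimp only; omega) (by dsimp only; omega)
        (by dsimp only; omega))
  have key : ∀ w : Pt, Ne (s1, s2) w → PConn F (bl (z1, z2) R) (s1 + 1, s2) w := by
    rintro ⟨w1, w2⟩ h
    simp only [Ne] at h
    rcases h with ⟨rfl, rfl⟩ | ⟨rfl, rfl⟩ | ⟨rfl, rfl⟩ | ⟨rfl, rfl⟩
    · exact r0
    · exact r3
    · exact r1
    · exact r2
  exact (key w h).symm.trans (key w' h')

theorem bl_mono {r R : ℤ} (h : r ≤ R) : bl z r ⊆ bl z R := by
  intro v hv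
  have hv' : nm (v - z) ≤ r := hv
  show nm (v - z) ≤ R
  omega

/-- All the sites of the colour `e` around the cluster are joined when the squares which touch the
cluster get the colour `e`. -/
theorem ring {e : Bool} {ω : Cfg} (hr : 1 ≤ r) (hrR : r ≤ R) (hω : ω ∉ AR (!e) z r R)
    (hF : ∀ v ∈ US (!e) z r R ω, v ∈ F) : ∃ s0 : Pt,
      (∀ u : Pt, (u.1 + u.2) % 2 = pr e → nm (u - z) ≤ r → PConn F (bl z R) s0 u) ∧
      ∀ u ∈ YS e z r R ω, PConn F (bl z R) s0 u := by
  obtain ⟨s0, h0⟩ := inner_conn hr (fun v hv => hF v (US_inner hrR hv)) (pr e)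
  have h1 : ∀ u : Pt, (u.1 + u.2) % 2 = pr e → nm (u - z) ≤ r → PConn F (bl z R) s0 u := by
    intro u h2 h3
    have h4 := h0 r.toNat (by omega) (by omega) u h2 (by omega)
    exact h4.mono subset_rfl (bl_mono hrR)
  refine ⟨s0, h1, ?_⟩
  have key : ∀ s ∈ KS (!e) z r R ω, ∀ w : Pt, Ne s w → PConn F (bl z R) s0 w := by
    rintro s ⟨u0, k1, k2, k3, k4⟩
    have hmem : ∀ {s : Pt}, s ∈ KS (!e) z r R ω → (∀ v, Cor v s → v ∈ F) ∧ nm (s - z) < R :=
      fun hs => ⟨fun v hv => hF v ⟨_, hs, hv⟩, KS_lt hω hs⟩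
    have key2 : s ∈ KS (!e) z r R ω ∧ ∀ w : Pt, Ne s w → PConn F (bl z R) s0 w := by
      induction k4 with
      | refl =>
        have hu0 : u0 ∈ KS (!e) z r R ω := ⟨u0, k1, k2, PConn.refl k3⟩
        refine ⟨hu0, fun w hw => ?_⟩
        obtain ⟨m1, m2⟩ := hmem hu0
        have k2' := k2
        rw [nm_le] at k2'
        simp only [Prod.fst_sub, Prod.snd_sub] at k2'
        rw [pr_not] at k1
        have hpo := pr_or e
        by_cases hlt : z.1 < u0.1
        · refine (h1 (u0.1 - 1, u0.2) (by dsimp only; omega) ?_).trans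
            (ne_conn m1 m2 (Or.inr (Or.inl ⟨rfl, rfl⟩)) hw)
          rw [nm_le]
          simp only [Prod.fst_sub, Prod.snd_sub]
          omega
        · refine (h1 (u0.1 + 1, u0.2) (by dsimp only; omega) ?_).trans
            (ne_conn m1 m2 (Or.inl ⟨rfl, rfl⟩) hw)
          rw [nm_le]
          simp only [Prod.fst_sub, Prod.snd_sub]
          omega
      | @tail a b _ hab ih =>
        obtain ⟨i1, i2⟩ := ih
        have hb : b ∈ KS (!e) z r R ω := KS_tail i1 hab.1 hab.2
        refine ⟨hb, fun w hw => ?_⟩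
        obtain ⟨m1, m2⟩ := hmem hb
        have s1 := hab.1.1
        have s2 := hab.1.2.1
        refine (i2 (a.1, b.2) ?_).trans (ne_conn m1 m2 ?_ hw)
        · unfold Ne
          dsimp only
          omega
        · unfold Ne
          dsimp only
          omega
    exact key2.2
  rintro u ⟨h2, v, ⟨s, hs, hvs⟩, hvu⟩
  refine key s hs u ?_
  have h3 := KS_par hs
  rw [pr_not] at h3
  have hpo := pr_or e
  unfold Cor at hvs hvu
  unfold Ne
  omega

/-! ### The chain -/

/-- The site with the given coordinates. -/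
def nd (d : Bool) (X t : ℤ) : Pt := if d then (X, t) else (t, X)

theorem lg_nd (d : Bool) (X t : ℤ) : lg d (nd d X t) = X := by
  cases d <;> simp [lg, nd]

theorem tg_nd (d : Bool) (X t : ℤ) : tg d (nd d X t) = t := by
  cases d <;> simp [tg, nd]

theorem nm_lt_iff (d : Bool) {v z : Pt} {R : ℤ} : nm (v - z) ≤ R ↔
    lg d z - R ≤ lg d v ∧ lg d v ≤ lg d z + R ∧ tg d z - R ≤ tg d v ∧ tg d v ≤ tg d z + R := by
  rw [nm_le]
  cases d
  · simp only [lg, tg, Prod.fst_sub, Prod.snd_sub, Bool.false_eq_true, if_false]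
    omega
  · simp only [lg, tg, Prod.fst_sub, Prod.snd_sub, if_true]
    omega

theorem lg_not (d : Bool) (v : Pt) : lg (!d) v = tg d v := by cases d <;> rfl

theorem tg_not (d : Bool) (v : Pt) : tg (!d) v = lg d v := by cases d <;> rfl

theorem Rc_not (d : Bool) (l0 l1 t0 t1 : ℤ) : Rc (!d) t0 t1 l0 l1 = Rc d l0 l1 t0 t1 := by
  ext v
  simp only [Rc, Set.mem_ofPred_eq, lg_not, tg_not]
  tauto

theorem cor_lt (d : Bool) {v s : Pt} (h : Cor v s) :
    (lg d s = lg d v ∨ lg d s = lg d v + 1) ∧ (tg d s = tg d v ∨ tg d s = tg d v + 1) := by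
  obtain ⟨h1, h2⟩ := h
  cases d
  · simp only [lg, tg, Bool.false_eq_true, if_false]
    exact ⟨h2, h1⟩
  · simp only [lg, tg, if_true]
    exact ⟨h1, h2⟩

theorem arm_path {e d : Bool} {x y lo hi l0 l1 t0 t1 : ℤ} {ω : Cfg} {F : Set Pt}
    (hF : cs e ω ⊆ F) (h1 : l0 ≤ x) (h2 : y ≤ l1) (h3 : t0 ≤ lo) (h4 : hi ≤ t1) {u v : Pt}
    (hu : u ∈ Rc d l0 l1 t0 t1) (h : ReflTransGen (PStep (cs e ω ∩ ↑(ar d x y lo hi))) u v) :
    PConn F (Rc d l0 l1 t0 t1) u v := by
  induction h with
  | refl => exact PConn.refl hu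
  | @tail a b _ hab ih =>
    refine ih.tail ⟨hab.1, hab.2.1, hF hab.2.2.1⟩ ?_
    have h5 := Finset.mem_coe.1 hab.2.2.2
    rw [mem_ar] at h5
    have h6 := cor_lt d (cor_of_step hab).2
    show l0 ≤ lg d b ∧ lg d b ≤ l1 ∧ t0 ≤ tg d b ∧ tg d b ≤ t1
    omega

/-- **Chain**: no arms at the nodes of a strip, its arms are crossed: the rectangle is crossed. -/
theorem chain {d e : Bool} {l0 l1 t0 t1 t r R : ℤ} (hr : 1 ≤ r) (hrR : r ≤ R) (h1 : t0 + R ≤ t)
    (h2 : t + R ≤ t1) (hl : l0 ≤ l1) {ν : ℕ} {P : ℕ → ℤ} (hP0 : P 0 = l0) (hPν : P (ν + 1) = l1)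
    (hPin : ∀ k, 1 ≤ k → k ≤ ν → l0 + R ≤ P k ∧ P k + R ≤ l1) {ω : Cfg}
    (hN : ∀ k, 1 ≤ k → k ≤ ν → ω ∉ AR (!e) (nd d (P k) t) r R)
    (hA : ∀ k ≤ ν, ∃ u v : Pt,
      (u ∈ side d e (P k) (t - r) (t + r) ∨ (1 ≤ k ∧ u ∈ YS e (nd d (P k) t) r R ω)) ∧
      (v ∈ side d e (P (k + 1)) (t - r) (t + r) ∨
        (k + 1 ≤ ν ∧ v ∈ YS e (nd d (P (k + 1)) t) r R ω)) ∧
      ReflTransGen (PStep (cs e ω ∩ ↑(ar d (P k) (P (k + 1)) (t - r) (t + r)))) u v) :
    ω ∈ Cx d e l0 l1 t0 t1 := by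
  classical
  by_contra hcon
  obtain ⟨s, t', hs, ht', hpar, hπ⟩ := (alt d e hl (by omega : t0 ≤ t1) ω).resolve_left hcon
  rw [lg_not] at hs ht'
  rw [Rc_not] at hπ
  have hPr : ∀ k ≤ ν + 1, l0 ≤ P k ∧ P k ≤ l1 := by
    intro k hk
    rcases Nat.eq_zero_or_pos k with rfl | hk0
    · rw [hP0]; exact ⟨le_rfl, hl⟩
    · rcases Nat.lt_or_ge k (ν + 1) with h | h
      · have := hPin k hk0 (by omega)
        omega
      · have : k = ν + 1 := by omega
        rw [this, hPν]
        exact ⟨hl, le_rfl⟩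
  -- the sites of the closed path do not belong to the clusters
  have noK : ∀ x : Pt, PConn (cs (!e) ω) (Rc d l0 l1 t0 t1) s x → ∀ k, 1 ≤ k → k ≤ ν →
      x ∉ KS (!e) (nd d (P k) t) r R ω := by
    intro x hx k hk1 hk2 hxK
    have hlt := KS_lt (hN k hk1 hk2) hxK
    have hs' : R ≤ nm (s - nd d (P k) t) := by
      by_contra h
      have h3 : nm (s - nd d (P k) t) ≤ R - 1 := by omega
      rw [nm_lt_iff d, tg_nd] at h3
      omega
    obtain ⟨y, hy1, hy2, -⟩ := first_exit (b := nd d (P k) t) (R := R) hx.symm hlt.le hs'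
    have h4 := KS_trans hxK (hy2.mono subset_rfl Set.inter_subset_right)
    have h5 := KS_lt (hN k hk1 hk2) h4
    omega
  set U : Set Pt := {v | ∃ k, 1 ≤ k ∧ k ≤ ν ∧ v ∈ US (!e) (nd d (P k) t) r R ω} with hU
  set ω' : Cfg := fun v => if v ∈ U then e else ω v with hω'
  have hcs : cs e ω ⊆ cs e ω' := by
    intro v hv
    show (if v ∈ U then e else ω v) = e
    split_ifs
    · rfl
    · exact hv
  have hUF : ∀ v ∈ U, v ∈ cs e ω' := by
    intro v hv
    show (if v ∈ U then e else ω v) = e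
    rw [if_pos hv]
  have claim1 : PConn (cs (!e) ω') (Rc d l0 l1 t0 t1) s t' := by
    have hsR := hπ.left_mem
    obtain ⟨-, hπ⟩ := hπ
    have key : PConn (cs (!e) ω) (Rc d l0 l1 t0 t1) s t' ∧
        PConn (cs (!e) ω') (Rc d l0 l1 t0 t1) s t' := by
      clear ht'
      induction hπ with
      | refl => exact ⟨PConn.refl hsR, PConn.refl hsR⟩
      | @tail x y _ hxy ih =>
        obtain ⟨i1, i2⟩ := ih
        have i3 : PConn (cs (!e) ω) (Rc d l0 l1 t0 t1) s y := i1.tail hxy.1 hxy.2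
        refine ⟨i3, i2.tail ⟨hxy.1.1, hxy.1.2.1, ?_⟩ hxy.2⟩
        have hnU : (min x.1 y.1, min x.2 y.2) ∉ U := by
          rintro ⟨k, hk1, hk2, s', hs', hc⟩
          have p1 := KS_par hs'
          have p2 := i1.parity
          have p3 := i3.parity
          have q1 := hxy.1.1
          have q2 := hxy.1.2.1
          have e1 : s' = x ∨ s' = y := by
            obtain ⟨c1, c2⟩ := hc
            obtain ⟨x1, x2⟩ := x
            obtain ⟨y1, y2⟩ := y
            obtain ⟨s1, s2⟩ := s'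
            simp only [Prod.mk.injEq]
            dsimp only at *
            omega
          rcases e1 with rfl | rfl
          · exact noK _ i1 k hk1 hk2 hs'
          · exact noK _ i3 k hk1 hk2 hs'
        have h6 : ω _ = (!e) := hxy.1.2.2
        show (if _ ∈ U then e else ω _) = (!e)
        rw [if_neg hnU]
        exact h6
    exact key.2
  -- connections at the nodes
  have hring : ∀ k, 1 ≤ k → k ≤ ν → ∀ u v : Pt,
      (u ∈ side d e (P k) (t - r) (t + r) ∨ u ∈ YS e (nd d (P k) t) r R ω) →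
      (v ∈ side d e (P k) (t - r) (t + r) ∨ v ∈ YS e (nd d (P k) t) r R ω) →
      PConn (cs e ω') (Rc d l0 l1 t0 t1) u v := by
    intro k hk1 hk2 u v hu hv
    obtain ⟨s0, r1, r2⟩ := ring (F := cs e ω') hr hrR (hN k hk1 hk2)
      fun v hv => hUF v ⟨k, hk1, hk2, hv⟩
    have h3 : ∀ u : Pt, (u ∈ side d e (P k) (t - r) (t + r) ∨ u ∈ YS e (nd d (P k) t) r R ω) →
        PConn (cs e ω') (bl (nd d (P k) t) R) s0 u := by
      rintro u (hu | hu)
      · obtain ⟨u1, u2, u3, u4⟩ := hu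
        refine r1 u u4 ?_
        rw [nm_lt_iff d, lg_nd, tg_nd]
        omega
      · exact r2 u hu
    refine ((h3 u hu).symm.trans (h3 v hv)).mono subset_rfl ?_
    intro w hw
    have hw' : nm (w - nd d (P k) t) ≤ R := hw
    rw [nm_lt_iff d, lg_nd, tg_nd] at hw'
    have := hPin k hk1 hk2
    show l0 ≤ lg d w ∧ lg d w ≤ l1 ∧ t0 ≤ tg d w ∧ tg d w ≤ t1
    omega
  have harm : ∀ k ≤ ν, ∀ u v : Pt,
      (u ∈ side d e (P k) (t - r) (t + r) ∨ (1 ≤ k ∧ u ∈ YS e (nd d (P k) t) r R ω)) →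
      ReflTransGen (PStep (cs e ω ∩ ↑(ar d (P k) (P (k + 1)) (t - r) (t + r)))) u v →
      PConn (cs e ω') (Rc d l0 l1 t0 t1) u v := by
    intro k hk u v hu huv
    refine arm_path hcs (hPr k (by omega)).1 (hPr (k + 1) (by omega)).2 (by omega) (by omega)
      ?_ huv
    rcases hu with hu | ⟨hk1, hu⟩
    · obtain ⟨u1, u2, u3, u4⟩ := hu
      have := hPr k (by omega)
      show l0 ≤ lg d u ∧ lg d u ≤ l1 ∧ t0 ≤ tg d u ∧ tg d u ≤ t1
      omega
    · exact (hring k hk1 hk u u (Or.inr hu) (Or.inr hu)).left_mem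
  have hchain : ∀ k ≤ ν, ∃ s w : Pt, lg d s = l0 ∧ (s.1 + s.2) % 2 = pr e ∧
      PConn (cs e ω') (Rc d l0 l1 t0 t1) s w ∧ (w ∈ side d e (P (k + 1)) (t - r) (t + r) ∨
        (k + 1 ≤ ν ∧ w ∈ YS e (nd d (P (k + 1)) t) r R ω)) := by
    intro k
    induction k with
    | zero =>
      intro hk
      obtain ⟨u, v, hu, hv, huv⟩ := hA 0 hk
      have h3 := harm 0 hk u v hu huv
      rcases hu with hu | ⟨h4, -⟩
      · exact ⟨u, v, by rw [← hP0]; exact hu.1, hu.2.2.2, h3, hv⟩
      · omega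
    | succ k ih =>
      intro hk
      obtain ⟨s, w, a1, a2, a3, a4⟩ := ih (by omega)
      obtain ⟨u, v, hu, hv, huv⟩ := hA (k + 1) hk
      have h3 := harm (k + 1) hk u v hu huv
      have h4 := hring (k + 1) (by omega) hk w u (a4.imp id fun h => h.2) (hu.imp id fun h => h.2)
      exact ⟨s, v, a1, a2, (a3.trans h4).trans h3, hv⟩
  obtain ⟨s2, w, a1, a2, a3, a4⟩ := hchain ν le_rfl
  have a5 : lg d w = l1 := by
    rcases a4 with h | ⟨h, -⟩
    · rw [← hPν]; exact h.1
    · omega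
  refine excl (d := d) (e := e) (l0 := l0) (l1 := l1) (t0 := t0) (t1 := t1) (ω := ω')
    ⟨s2, w, a1, a5, a2, a3⟩ ⟨s, t', ?_, ?_, hpar, ?_⟩
  · rw [lg_not]; exact hs
  · rw [lg_not]; exact ht'
  · rw [Rc_not]; exact claim1

end Vale.Agent.P167.H990
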