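import Vale.Agent.P167.H990.Ar
import Vale.Agent.P167.H816.Vr

/-!
# P167: the two forms of the lower bounds for crossings of rectangles
-/

set_option autoImplicit false

namespace Vale.Agent.P167.H990

open Finset Vale.Agent.P167.FK Vale.Agent.P167.FKA Vale.Agent.P167.H262 Vale.Agent.P167.H816
open Vale.Agent.P167.H632 (cs pr cs_true cs_false)
open Relation (ReflTransGen)
open Vale.Agent.P145.FB (PStep PConn)

/-- A path with distinct ends through squares of `E` starts and ends at corners of squares of `E`. -/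
theorem path_ends {F : Set Pt} {E : Finset Pt} {u v : Pt} (hne : u ≠ v)
    (h : ReflTransGen (PStep (F ∩ ↑E)) u v) : (∃ w ∈ E, Cor w u) ∧ ∃ w ∈ E, Cor w v := by
  constructor
  · rcases ReflTransGen.cases_head h with h1 | ⟨x, h1, -⟩
    · exact absurd h1 hne
    · exact ⟨_, Finset.mem_coe.1 h1.2.2.2, (cor_of_step h1).1⟩
  · rcases ReflTransGen.cases_tail h with h1 | ⟨x, -, h1⟩
    · exact absurd h1.symm hne
    · exact ⟨_, Finset.mem_coe.1 h1.2.2.2, (cor_of_step h1).2⟩

/-- Crossings of rectangles: from the sets of sites before and after to the sides. -/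
theorem ce_side {e d : Bool} {x y lo hi : ℤ} (hxy : x < y) {ω : Cfg}
    (h : ω ∈ CE e (ar d x y lo hi) {s | lg d s ≤ x ∧ (s.1 + s.2) % 2 = pr e}
      {s | y ≤ lg d s ∧ (s.1 + s.2) % 2 = pr e}) :
    ω ∈ CE e (ar d x y lo hi) (side d e x lo hi) (side d e y lo hi) := by
  obtain ⟨u, ⟨hu, hup⟩, v, ⟨hv, hvp⟩, huv⟩ := h
  have hne : u ≠ v := by
    rintro rfl
    omega
  obtain ⟨⟨w, hw, hwu⟩, w', hw', hwv⟩ := path_ends hne huv
  rw [mem_ar] at hw hw'
  obtain ⟨c1, c2⟩ := hwu
  obtain ⟨c3, c4⟩ := hwv
  refine ⟨u, ?_, v, ?_, huv⟩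
  · cases d
    · simp only [lg, tg, Bool.false_eq_true, if_false] at *
      simp only [side, lg, tg, Bool.false_eq_true, if_false, Set.mem_ofPred_eq]
      omega
    · simp only [lg, tg, if_true] at *
      simp only [side, lg, tg, if_true, Set.mem_ofPred_eq]
      omega
  · cases d
    · simp only [lg, tg, Bool.false_eq_true, if_false] at *
      simp only [side, lg, tg, Bool.false_eq_true, if_false, Set.mem_ofPred_eq]
      omega
    · simp only [lg, tg, if_true] at *
      simp only [side, lg, tg, if_true, Set.mem_ofPred_eq]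
      omega

theorem ce_triv {e d : Bool} {x lo hi : ℤ} (h : lo < hi) (ω : Cfg) (E : Finset Pt) :
    ω ∈ CE e E (side d e x lo hi) (side d e x lo hi) := by
  have hor := H632.pr_or e
  have key : ∃ s : Pt, s ∈ side d e x lo hi := by
    cases d
    · by_cases hp : (lo + x) % 2 = pr e
      · exact ⟨(lo, x), rfl, le_rfl, h.le, hp⟩
      · exact ⟨(lo + 1, x), rfl, (by show lo ≤ lo + 1; omega), (by show lo + 1 ≤ hi; omega),
          (by show (lo + 1 + x) % 2 = pr e; omega)⟩
    · by_cases hp : (x + lo) % 2 = pr e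
      · exact ⟨(x, lo), rfl, le_rfl, h.le, hp⟩
      · exact ⟨(x, lo + 1), rfl, (by show lo ≤ lo + 1; omega), (by show lo + 1 ≤ hi; omega),
          (by show (x + (lo + 1)) % 2 = pr e; omega)⟩
  obtain ⟨s, hs⟩ := key
  exact ⟨s, hs, s, hs, ReflTransGen.refl⟩

/-- `VR` implies `VRt`. -/
theorem vrt_of_vr {Q : ℝ} (hQ : 0 < Q) (hQ1 : Q ≤ 1) (h : VR Q) : VRt Q := by
  intro k
  obtain ⟨c, hc, h⟩ := h k
  refine ⟨min c 1, 1, lt_min hc one_pos, le_rfl, fun e d x y lo hi hxy hn hk => ?_⟩
  rcases hxy.lt_or_eq with hlt | rfl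
  · obtain ⟨h1, -, h3, -⟩ := h (hi - lo) x lo hn
    obtain ⟨-, h2, -, h4⟩ := h (hi - lo) lo x hn
    rw [show lo + (hi - lo) = hi by ring] at h1 h2 h3 h4
    refine (min_le_left c 1).trans ?_
    cases e
    · cases d
      · refine (h4.trans (dV_mono hQ hQ1 le_rfl le_rfl le_rfl (by linarith))).trans
          (Pr_mono hQ fun ω hω => ?_)
        refine ce_side hlt ?_
        rw [CE_false]
        obtain ⟨u, hu, v, hv, huv⟩ := hω
        refine ⟨u, ⟨?_, ?_⟩, v, ⟨?_, ?_⟩, huv⟩
        · exact hu.2
        · have := hu.1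
          rw [Int.odd_iff] at this
          simpa [pr] using this
        · exact hv.2
        · have := hv.1
          rw [Int.odd_iff] at this
          simpa [pr] using this
      · refine (h3.trans (dH_mono hQ hQ1 le_rfl (by linarith) le_rfl le_rfl)).trans
          (Pr_mono hQ fun ω hω => ?_)
        refine ce_side hlt ?_
        rw [CE_false]
        obtain ⟨u, hu, v, hv, huv⟩ := hω
        refine ⟨u, ⟨?_, ?_⟩, v, ⟨?_, ?_⟩, huv⟩
        · exact hu.2
        · have := hu.1
          rw [Int.odd_iff] at this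
          simpa [pr] using this
        · exact hv.2
        · have := hv.1
          rw [Int.odd_iff] at this
          simpa [pr] using this
    · cases d
      · refine (h2.trans (cV_mono hQ hQ1 le_rfl le_rfl le_rfl (by linarith))).trans
          (Pr_mono hQ fun ω hω => ?_)
        refine ce_side hlt ?_
        rw [CE_true]
        obtain ⟨u, hu, v, hv, huv⟩ := hω
        refine ⟨u, ⟨?_, ?_⟩, v, ⟨?_, ?_⟩, huv⟩
        · exact hu.2
        · have := hu.1
          rw [Int.even_iff] at this
          simpa [pr] using this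
        · exact hv.2
        · have := hv.1
          rw [Int.even_iff] at this
          simpa [pr] using this
      · refine (h1.trans (cH_mono hQ hQ1 le_rfl (by linarith) le_rfl le_rfl)).trans
          (Pr_mono hQ fun ω hω => ?_)
        refine ce_side hlt ?_
        rw [CE_true]
        obtain ⟨u, hu, v, hv, huv⟩ := hω
        refine ⟨u, ⟨?_, ?_⟩, v, ⟨?_, ?_⟩, huv⟩
        · exact hu.2
        · have := hu.1
          rw [Int.even_iff] at this
          simpa [pr] using this
        · exact hv.2
        · have := hv.1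
          rw [Int.even_iff] at this
          simpa [pr] using this
  · refine (min_le_right c 1).trans ?_
    have e1 : CE e (ar d x x lo hi) (side d e x lo hi) (side d e x lo hi) = Set.univ := by
      ext ω
      simp only [Set.mem_univ, iff_true]
      exact ce_triv (by omega) ω _
    rw [e1]
    unfold Pr
    rw [Set.indicator_univ]
    exact (Ex_const hQ 1).ge

end Vale.Agent.P167.H990
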